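import Vale.Agent.P259Z.Top
import Vale.Agent.P259.Bdl.B1
import Mathlib.CategoryTheory.Limits.Preserves.FunctorCategory

/-!
The globe category and `Θ₀` of the statement are isomorphic to those of the development.
-/

open CategoryTheory Limits Opposite

namespace Vale.Agent.P259Z

open Vale.Agent.P259 (Tab Theta0)

namespace Br

/-- The image of a generator. -/
def genMap : ∀ {n m : ℕ}, Gen n m → P259.Globe.Hom n m
  | _, _, .σ n => .face false n.lt_succ_self
  | _, _, .τ n => .face true n.lt_succ_self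

/-- The prefunctor on the generating quiver. -/
def pre : Vx ⥤q P259.Globe where
  obj a := ⟨a.n⟩
  map g := genMap g

/-- The comparison of the globe categories. -/
def Φ : Globe ⥤ P259.Globe :=
  CategoryTheory.Quotient.lift grel (Paths.lift pre) (by
    rintro _ _ _ _ (n | n) <;> rfl)

/-- The generator with a given side. -/
def g (b : Bool) (n : ℕ) : Globe.D n ⟶ Globe.D (n + 1) := bif b then Globe.τ n else Globe.σ n

lemma Φ_g (b : Bool) (n : ℕ) : Φ.map (g b n) = P259.Globe.face b n.lt_succ_self := by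
  cases b <;> rfl

lemma g_g (b c : Bool) (n : ℕ) : g b n ≫ g c (n + 1) = g b n ≫ g b (n + 1) := by
  cases b <;> cases c
  · rfl
  · exact (Globe.σσ n).symm
  · exact Globe.ττ n
  · rfl

lemma Φ_iter (b : Bool) {j i : ℕ} (h : j < i) :
    Φ.map (Globe.iter (g b) h) = P259.Globe.face b h := by
  induction h with
  | refl => rw [Globe.iter_self]; exact Φ_g b j
  | step h ih =>
    rw [Globe.iter_succ (g b) h, Φ.map_comp, ih, Φ_g]
    rfl

lemma iter_g (b c : Bool) {j i : ℕ} (h : j < i) (h' : j < i + 1) :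
    Globe.iter (g b) h ≫ g c i = Globe.iter (g b) h' := by
  rw [Globe.iter_succ (g b) h h']
  cases h with
  | refl => rw [Globe.iter_self]; exact g_g b c j
  | step h => rw [Globe.iter_succ (g b) h, Category.assoc, Category.assoc, g_g]

/-- The inverse on morphisms. -/
def back : ∀ {n m : ℕ}, P259.Globe.Hom n m → (Globe.D n ⟶ Globe.D m)
  | _, _, .id _ => 𝟙 _
  | _, _, .face b h => Globe.iter (g b) h

lemma back_comp {n m : ℕ} (x : P259.Globe.Hom n m) (c : Bool) :
    back (x.comp (.face c m.lt_succ_self)) = back x ≫ g c m := by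
  cases x with
  | id => exact (Globe.iter_self _ _ _).trans (Category.id_comp _).symm
  | face b h => exact (iter_g b c h _).symm

lemma back_Φ {a : Paths Vx} : ∀ {b : Paths Vx} (p : a ⟶ b),
    back (n := Vx.n a) (m := Vx.n b) (Φ.map ((Quotient.functor grel).map p)) =
      (Quotient.functor grel).map p := by
  intro b p
  induction p using Paths.induction_fixed_source with
  | id => exact ((Quotient.functor grel).map_id a).symm
  | @comp u v p q ih =>
    obtain ⟨u⟩ := u
    obtain ⟨v⟩ := v
    rw [Functor.map_comp]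
    cases q with
    | σ => exact (back_comp _ false).trans (congrArg (· ≫ g false u) ih)
    | τ => exact (back_comp _ true).trans (congrArg (· ≫ g true u) ih)

instance : Φ.Faithful where
  map_injective {X Y} f f' h := by
    obtain ⟨p, rfl⟩ := (Quotient.functor grel).map_surjective (X := X.as) (Y := Y.as) f
    obtain ⟨p', rfl⟩ := (Quotient.functor grel).map_surjective (X := X.as) (Y := Y.as) f'
    exact (back_Φ p).symm.trans ((congrArg back h).trans (back_Φ p'))

instance : Φ.Full where
  map_surjective {X Y} f := by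
    obtain ⟨⟨n⟩⟩ := X
    obtain ⟨⟨m⟩⟩ := Y
    refine ⟨back (n := n) (m := m) f, ?_⟩
    cases f with
    | id => exact Φ.map_id _
    | face b h => exact Φ_iter b h

instance : Φ.EssSurj where
  mem_essImage X := ⟨Globe.D X.dim, ⟨Iso.refl _⟩⟩

instance : Φ.IsEquivalence where

/-- Restriction of presheaves. -/
abbrev R' : P259.GSet ⥤ (Globeᵒᵖ ⥤ Type) := (Functor.whiskeringLeft _ _ _).obj Φ.op

/-- Restriction of presheaves. -/
def R : P259.GSet ⥤ GSet := R'

instance : R.Faithful := inferInstanceAs R'.Faithful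

instance : R.Full := inferInstanceAs R'.Full

instance : PreservesColimitsOfShape WalkingSpan R :=
  inferInstanceAs (PreservesColimitsOfShape WalkingSpan R')

lemma isIso_ym (X : Globe) : IsIso (yonedaMap Φ X) := by
  refine (NatTrans.isIso_iff_isIso_app _).2 fun Y => (isIso_iff_bijective _).2 ?_
  exact ⟨fun _ _ h => Φ.map_injective h, fun f => Φ.map_surjective f⟩

/-- The comparison of the representable presheaves. -/
noncomputable def y (n : ℕ) : yD n ≅ R.obj (P259.GSet.disc n) :=
  @asIso _ _ _ _ (yonedaMap Φ (Globe.D n)) (isIso_ym _)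

lemma y_nat {n m : ℕ} (f : Globe.D n ⟶ Globe.D m) :
    yMap f ≫ (y m).hom = (y n).hom ≫ R.map (yoneda.map (Φ.map f)) := by
  refine NatTrans.ext (funext fun X => ?_)
  ext u
  exact Φ.map_comp u f

lemma y_face (b : Bool) {j i : ℕ} (h : j < i) :
    yMap (Globe.iter (g b) h) ≫ (y i).hom =
      (y j).hom ≫ R.map (yoneda.map (P259.Globe.face b h)) := by
  rw [y_nat, Φ_iter]
  rfl

lemma sq {l : ℕ} (t : Tab l) {j i : ℕ} (hl : j < l) (hi : j < i)
    (e : (gsum t).X ≅ R.obj t.build.1) (he : (gsum t).last ≫ e.hom = (y l).hom ≫ R.map t.build.2) :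
    IsPushout (yMap (Globe.iter Globe.τ hl) ≫ (gsum t).last) (yMap (Globe.iter Globe.σ hi))
      (e.hom ≫ R.map (pushout.inl (yoneda.map (P259.Globe.face true hl) ≫ t.build.2)
        (yoneda.map (P259.Globe.face false hi))))
      ((y i).hom ≫ R.map (pushout.inr (yoneda.map (P259.Globe.face true hl) ≫ t.build.2)
        (yoneda.map (P259.Globe.face false hi)))) := by
  refine ((IsPushout.of_hasPushout (yoneda.map (P259.Globe.face true hl) ≫ t.build.2)
    (yoneda.map (P259.Globe.face false hi))).map R).of_iso' (y j) e (y i) (Iso.refl _) ?_ ?_ ?_ ?_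
  · rw [R.map_comp, ← Category.assoc, ← y_face true hl, Category.assoc, ← he, Category.assoc]
    rfl
  · exact (y_face false hi).symm
  · exact (Category.comp_id _).symm
  · exact (Category.comp_id _).symm

/-- The comparison of the globular sums. -/
noncomputable def θ : ∀ {l : ℕ} (t : Tab l), {e : (gsum t).X ≅ R.obj t.build.1 //
    (gsum t).last ≫ e.hom = (y l).hom ≫ R.map t.build.2}
  | _, .disc i => ⟨y i, (Category.id_comp _).trans
      ((Category.comp_id _).symm.trans (congrArg _ (R.map_id _).symm))⟩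
  | _, .glue t _ _ hl hi =>
    ⟨(IsPushout.of_hasPushout _ _).isoIsPushout _ _ (sq t hl hi (θ t).1 (θ t).2),
      (IsPushout.of_hasPushout _ _).inr_isoIsPushout_hom _ _ (sq t hl hi (θ t).1 (θ t).2)⟩

lemma inl_θ {l : ℕ} (t : Tab l) {j i : ℕ} (hl : j < l) (hi : j < i) :
    (Θ₀.inl t hl hi).hom ≫ (θ (t.glue j i hl hi)).1.hom =
      (θ t).1.hom ≫ R.map (P259.Theta0.inl t j i hl hi) :=
  (IsPushout.of_hasPushout _ _).inl_isoIsPushout_hom _ _ (sq t hl hi (θ t).1 (θ t).2)

/-- The underlying presheaves of the development, restricted. -/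
noncomputable def G : Theta0 ⥤ GSet := P259.Theta0.toG ⋙ R

/-- The comparison of the globular sums. -/
noncomputable def θs (S : Theta0) : (gsum S.tab).X ≅ G.obj S := (θ S.tab).1

/-- The comparison functor from `Θ₀` of the development to `Θ₀` of the statement. -/
noncomputable def E : Theta0 ⥤ Θ₀ where
  obj S := S
  map {S T} f := InducedCategory.homMk ((θs S).hom ≫ G.map f ≫ (θs T).inv)
  map_id S := InducedCategory.hom_ext (by
    change (θs S).hom ≫ G.map (𝟙 S) ≫ (θs S).inv = 𝟙 _
    rw [G.map_id, Category.id_comp, Iso.hom_inv_id])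
  map_comp {S T U} f f' := InducedCategory.hom_ext (by
    change (θs S).hom ≫ G.map (f ≫ f') ≫ (θs U).inv =
      ((θs S).hom ≫ G.map f ≫ (θs T).inv) ≫ (θs T).hom ≫ G.map f' ≫ (θs U).inv
    rw [G.map_comp]
    simp only [Category.assoc, Iso.inv_hom_id_assoc])

lemma E_eq' {S T : Theta0} (f : S ⟶ T) (f' : (gsum S.tab).X ⟶ (gsum T.tab).X)
    (h : f' ≫ (θs T).hom = (θs S).hom ≫ G.map f) :
    (θs S).hom ≫ G.map f ≫ (θs T).inv = f' := by
  rw [← Category.assoc, ← h, Category.assoc, Iso.hom_inv_id, Category.comp_id]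

lemma E_eq {S T : Theta0} (f : S ⟶ T) (f' : E.obj S ⟶ E.obj T)
    (h : (f'.hom : (gsum S.tab).X ⟶ (gsum T.tab).X) ≫ (θs T).hom = (θs S).hom ≫ G.map f) :
    E.map f = f' :=
  InducedCategory.hom_ext (E_eq' f f'.hom h)

instance : E.Faithful where
  map_injective {S T} f f' h := by
    have h1 : (θs S).hom ≫ G.map f ≫ (θs T).inv =
      (θs S).hom ≫ G.map f' ≫ (θs T).inv := congrArg InducedCategory.Hom.hom h
    rw [cancel_epi, cancel_mono] at h1
    exact R.map_injective (X := S.toGSet) (Y := T.toGSet) h1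

instance : E.Full where
  map_surjective {S T} f := by
    let f' : (gsum S.tab).X ⟶ (gsum T.tab).X := f.hom
    obtain ⟨k, hk⟩ := R.map_surjective (X := S.toGSet) (Y := T.toGSet)
      ((θs S).inv ≫ f' ≫ (θs T).hom)
    have hk' : G.map (X := S) (Y := T) k = (θs S).inv ≫ f' ≫ (θs T).hom := hk
    refine ⟨k, InducedCategory.hom_ext (E_eq' k f' ?_)⟩
    rw [hk', Iso.hom_inv_id_assoc]

/-- The iterated faces in `Θ₀`. -/
noncomputable def face (b : Bool) {j i : ℕ} (h : j < i) : Θ₀.disc j ⟶ Θ₀.disc i :=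
  InducedCategory.homMk (yoneda.map (Globe.iter (g b) h))

/-- The last disc in `Θ₀`. -/
noncomputable def last {l : ℕ} (t : Tab l) : Θ₀.disc l ⟶ Θ₀.sum t :=
  InducedCategory.homMk (gsum t).last

lemma E_face (b : Bool) {j i : ℕ} (h : j < i) : E.map (P259.Theta0.face b h) = face b h :=
  E_eq _ _ (y_face b h)

lemma E_last {l : ℕ} (t : Tab l) : E.map (P259.Theta0.lastIncl t) = last t :=
  E_eq _ _ (θ t).2

lemma E_inl {l : ℕ} (t : Tab l) {j i : ℕ} (hl : j < l) (hi : j < i) :
    E.map (P259.Theta0.inl t j i hl hi) = Θ₀.inl t hl hi :=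
  E_eq _ _ (inl_θ t hl hi)

lemma E_inr {l : ℕ} (t : Tab l) {j i : ℕ} (hl : j < l) (hi : j < i) :
    E.map (P259.Theta0.inr t j i hl hi) = Θ₀.inr t hl hi :=
  E_last (t.glue j i hl hi)

lemma E_tgt {l : ℕ} (t : Tab l) {j : ℕ} (hl : j < l) :
    E.map (P259.Theta0.face true hl ≫ P259.Theta0.lastIncl t) = Θ₀.tgtLast t hl := by
  rw [E.map_comp, E_face, E_last]
  rfl

lemma E_src {j i : ℕ} (hi : j < i) : E.map (P259.Theta0.face false hi) = Θ₀.srcDisc hi :=
  E_face false hi

lemma E_σ (n : ℕ) : E.map (P259.Theta0.σ n) = Θ₀.σ n :=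
  (E_src _).trans (Θ₀.srcDisc_one n _)

lemma E_τ (n : ℕ) : E.map (P259.Theta0.τ n) = Θ₀.τ n :=
  (E_face true _).trans (InducedCategory.hom_ext
    (congrArg yoneda.map (Globe.iter_self _ n n.lt_succ_self)))

lemma dim_eq (S : Theta0) : Θ₀.dim S = S.dim := by
  obtain @⟨l, t⟩ := S
  change tdim t = t.dim
  induction t with
  | disc i => rfl
  | glue t j i hl hi ih => exact congrArg (max · i) ih

end Br

end Vale.Agent.P259Z
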