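import Vale.Agent.P259Z.Br1

/-!
Globular extensions of the statement and of the development: objects and morphisms.
-/

open CategoryTheory Limits Opposite

namespace Vale.Agent.P259Z

open Vale.Agent.P259 (Tab Theta0)

namespace Br

/-- The table of a globular sum. -/
def toT (S : Θ₀) : Theta0 := S

/-- The inverse comparison functor. -/
noncomputable def Einv : Θ₀ ⥤ Theta0 where
  obj S := toT S
  map {S T} f := E.preimage (X := toT S) (Y := toT T) f
  map_id S := Functor.preimage_id (F := E) (X := toT S)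
  map_comp {S T U} f f' :=
    Functor.preimage_comp (F := E) (X := toT S) (Y := toT T) (Z := toT U) f f'

lemma Einv_E {S T : Theta0} (f : S ⟶ T) : Einv.map (E.map f) = f := E.preimage_map f

lemma E_Einv {S T : Θ₀} (f : S ⟶ T) : E.map (Einv.map f) = f :=
  E.map_preimage (X := toT S) (Y := toT T) f

lemma sums_E {K : Type*} [Category.{0} K] {F : Θ₀ ⥤ K} (h : PreservesSums F) {l : ℕ} (t : Tab l)
    (j i : ℕ) (hl : j < l) (hi : j < i) :
    IsPushout (F.map (E.map (P259.Theta0.face true hl ≫ P259.Theta0.lastIncl t)))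
      (F.map (E.map (P259.Theta0.face false hi))) (F.map (E.map (P259.Theta0.inl t j i hl hi)))
      (F.map (E.map (P259.Theta0.inr t j i hl hi))) := by
  rw [E_tgt, E_src, E_inl, E_inr]
  exact h t hl hi

/-- The globular extension of the development attached to one of the statement. -/
noncomputable def ge (A : GlobExt) : P259.GlobExt where
  Hom S T := A.H S T
  id S := 𝟙 (A.J.obj S)
  comp f f' := f ≫ f'
  id_comp _ := Category.id_comp _
  comp_id _ := Category.comp_id _
  assoc _ _ _ := Category.assoc _ _ _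
  incl f := A.J.map (E.map f)
  incl_id S := (E ⋙ A.J).map_id S
  incl_comp f f' := (E ⋙ A.J).map_comp f f'
  glue t j i hl hi U a b h := by
    have sq := sums_E A.sums t j i hl hi
    exact ⟨sq.desc a b h, ⟨sq.inl_desc a b h, sq.inr_desc a b h⟩, fun c hc =>
      sq.hom_ext (hc.1.trans (sq.inl_desc a b h).symm) (hc.2.trans (sq.inr_desc a b h).symm)⟩

/-- The globular extension of the statement attached to one of the development. -/
noncomputable def ofG (D : P259.GlobExt) : GlobExt where
  C := D.Obj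
  J := Einv ⋙ D.J
  bij := ⟨fun _ _ h => congrArg P259.GlobExt.Obj.sum h, fun X => ⟨X.sum, rfl⟩⟩
  sums t j i hl hi := by
    have h := D.isPushout t j i hl hi
    have e : ∀ {S T : Theta0} (f : S ⟶ T) {f' : E.obj S ⟶ E.obj T}, E.map f = f' →
        D.J.map f = (Einv ⋙ D.J).map f' := by
      rintro S T f _ rfl
      exact (congrArg D.J.map (Einv_E f)).symm
    rw [e _ (E_tgt t hl), e _ (E_src hi), e _ (E_inl t hl hi), e _ (E_inr t hl hi)] at h
    exact h

lemma ext_incl (D : P259.GlobExt) (I : ∀ {S T : Theta0}, (S ⟶ T) → D.Hom S T)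
    (h : @I = @P259.GlobExt.incl D) p1 p2 p3 :
    (⟨D.Hom, D.id, D.comp, D.id_comp, D.comp_id, D.assoc, I, p1, p2, p3⟩ : P259.GlobExt) = D := by
  subst h
  rfl

lemma ge_ofG (D : P259.GlobExt) : ge (ofG D) = D :=
  ext_incl D (fun f => (ge (ofG D)).incl f) (by
    funext S T f
    exact congrArg D.incl (Einv_E f)) (ge (ofG D)).incl_id (ge (ofG D)).incl_comp
    (ge (ofG D)).glue

lemma ge_surj (D : P259.GlobExt) : ∃ X, ge X = D := ⟨_, ge_ofG D⟩

open GlobExt

variable {A B X : GlobExt}

lemma ghom_ext {F F' : A ⟶ B} (h : F.1 = F'.1) : F = F' := by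
  obtain ⟨F, _⟩ := F
  obtain ⟨F', _⟩ := F'
  obtain rfl : F = F' := h
  rfl

lemma app_id (F : A ⟶ B) (S : Θ₀) : app F (𝟙 (A.J.obj S)) = 𝟙 (B.J.obj S) := by
  simp [app]

lemma app_comp (F : A ⟶ B) {S T U : Θ₀} (f : A.H S T) (f' : A.H T U) :
    app F (f ≫ f') = app F f ≫ app F f' := by
  simp [app]

lemma app_J (F : A ⟶ B) {S T : Θ₀} (u : S ⟶ T) : app F (A.J.map u) = B.J.map u := by
  have h : F.1.map (A.J.map u) = _ := Functor.congr_hom F.2 u
  simp [app, h]

lemma app_app (F : A ⟶ B) (F' : B ⟶ X) {S T : Θ₀} (f : A.H S T) :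
    app (F ≫ F') f = app F' (app F f) := by
  change eqToHom _ ≫ F'.1.map (F.1.map f) ≫ eqToHom _ = _
  simp [app, eqToHom_map]

lemma hom_ext {F F' : A ⟶ B} (h : ∀ {S T : Θ₀} (f : A.H S T), app F f = app F' f) : F = F' := by
  apply ghom_ext
  refine CategoryTheory.Functor.ext (fun c => ?_) (fun c d f => ?_)
  · obtain ⟨S, rfl⟩ := A.bij.2 c
    exact (Functor.congr_obj F.2 S).trans (Functor.congr_obj F'.2 S).symm
  · obtain ⟨S, rfl⟩ := A.bij.2 c
    obtain ⟨T, rfl⟩ := A.bij.2 d
    have h1 := h f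
    simp only [app] at h1
    rw [eqToHom_comp_iff, comp_eqToHom_iff] at h1
    rw [h1]
    simp

/-- Morphisms of the development from morphisms of the statement. -/
noncomputable def toMap (F : A ⟶ B) : P259.GlobExt.Map (ge A) (ge B) where
  map f := app F f
  map_id S := app_id F S
  map_comp f f' := app_comp F f f'
  map_incl f := app_J F (E.map f)

lemma toMap_comp (F : A ⟶ B) (F' : B ⟶ X) : toMap (F ≫ F') = (toMap F).comp (toMap F') := by
  ext S T f
  exact app_app F F' f

lemma toMap_inj {F F' : A ⟶ B} (h : toMap F = toMap F') : F = F' :=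
  hom_ext fun {S T} f => congrArg (fun M : P259.GlobExt.Map (ge A) (ge B) =>
    M.map (S := S) (T := T) f) h

/-- The action of a morphism of the development. -/
noncomputable def mp (M : P259.GlobExt.Map (ge A) (ge B)) {S T : Θ₀} (f : A.H S T) : B.H S T :=
  M.map (S := S) (T := T) f

lemma mp_id (M : P259.GlobExt.Map (ge A) (ge B)) (S : Θ₀) :
    mp M (𝟙 (A.J.obj S)) = 𝟙 (B.J.obj S) := M.map_id S

lemma mp_comp (M : P259.GlobExt.Map (ge A) (ge B)) {S T U : Θ₀} (f : A.H S T) (f' : A.H T U) :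
    mp M (f ≫ f') = mp M f ≫ mp M f' := M.map_comp (S := S) (T := T) (U := U) f f'

lemma mp_J (M : P259.GlobExt.Map (ge A) (ge B)) {S T : Θ₀} (u : S ⟶ T) :
    mp M (A.J.map u) = B.J.map u := by
  rw [← E_Einv u]
  exact M.map_incl (Einv.map u)

lemma mp_cast (M : P259.GlobExt.Map (ge A) (ge B)) {S S' T T' : Θ₀} (p : S = S') (q : T' = T)
    (f : A.H S' T') : mp M (eqToHom (congrArg A.J.obj p) ≫ f ≫ eqToHom (congrArg A.J.obj q)) =
      eqToHom (congrArg B.J.obj p) ≫ mp M f ≫ eqToHom (congrArg B.J.obj q) := by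
  subst p q
  simp

/-- The inverse of the bijection on objects. -/
noncomputable def oinv (A : GlobExt) (c : A.C) : Θ₀ := (A.bij.2 c).choose

lemma J_oinv (c : A.C) : A.J.obj (oinv A c) = c := (A.bij.2 c).choose_spec

lemma oinv_J (S : Θ₀) : oinv A (A.J.obj S) = S := A.bij.1 (J_oinv _)

/-- The functor defined by a morphism of the development. -/
noncomputable def ofMapF (M : P259.GlobExt.Map (ge A) (ge B)) : A.C ⥤ B.C where
  obj c := B.J.obj (oinv A c)
  map {c d} f := mp M (eqToHom (J_oinv c) ≫ f ≫ eqToHom (J_oinv d).symm)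
  map_id c := by
    rw [Category.id_comp, eqToHom_trans, eqToHom_refl, mp_id]
  map_comp {c d e} f f' := by
    rw [← mp_comp]
    simp

lemma ofMapF_map (M : P259.GlobExt.Map (ge A) (ge B)) {S T : Θ₀} (f : A.H S T) :
    (ofMapF M).map f = eqToHom (congrArg B.J.obj (oinv_J S)) ≫ mp M f ≫
      eqToHom (congrArg B.J.obj (oinv_J T).symm) :=
  mp_cast M (oinv_J S) (oinv_J T).symm f

/-- Morphisms of the statement from morphisms of the development. -/
noncomputable def ofMap (M : P259.GlobExt.Map (ge A) (ge B)) : A ⟶ B :=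
  ⟨ofMapF M, CategoryTheory.Functor.ext (fun S => congrArg B.J.obj (oinv_J S)) fun S T u => by
    have h := ofMapF_map M (A.J.map u)
    rw [mp_J] at h
    exact h⟩

lemma toMap_ofMap (M : P259.GlobExt.Map (ge A) (ge B)) : toMap (ofMap M) = M := by
  ext S T f
  have h := ofMapF_map M (S := S) (T := T) f
  have key : ∀ {a a' b b' : B.C} (p : a' = a) (q : b = b') (x : a ⟶ b) (y : a' ⟶ b'),
      y = eqToHom p ≫ x ≫ eqToHom q → eqToHom p.symm ≫ y ≫ eqToHom q.symm = x := by
    rintro a _ b _ rfl rfl x y rfl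
    simp
  exact key _ _ _ _ h

lemma toMap_surj (M : P259.GlobExt.Map (ge A) (ge B)) : ∃ F, toMap F = M := ⟨_, toMap_ofMap M⟩

end Br

end Vale.Agent.P259Z
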