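import Vale.Agent.P259Z.Br2

/-!
Coherators of the statement and of the development.
-/

open CategoryTheory Limits Opposite

namespace Vale.Agent.P259Z

open Vale.Agent.P259 (Tab Theta0)

namespace Br

open GlobExt

variable {A B X : GlobExt}

lemma incl_σ (A : GlobExt) (n : ℕ) : (ge A).incl (P259.Theta0.σ n) = A.J.map (Θ₀.σ n) :=
  congrArg A.J.map (E_σ n)

lemma incl_τ (A : GlobExt) (n : ℕ) : (ge A).incl (P259.Theta0.τ n) = A.J.map (Θ₀.τ n) :=
  congrArg A.J.map (E_τ n)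

lemma par_iff {n : ℕ} {S : Θ₀} (f f' : A.H (Θ₀.disc n) S) :
    (ge A).Parallel (S := S) f f' ↔ A.Parallel f f' := by
  cases n with
  | zero => exact Iff.rfl
  | succ n =>
    change _ ∧ _ ↔ _ ∧ _
    rw [incl_σ, incl_τ]
    exact Iff.rfl

lemma lift_iff {n : ℕ} {S : Θ₀} (f f' : A.H (Θ₀.disc n) S) (h : A.H (Θ₀.disc (n + 1)) S) :
    (ge A).IsLift (S := S) f f' h ↔ A.IsLift f f' h := by
  unfold P259.GlobExt.IsLift
  rw [incl_σ, incl_τ]
  exact Iff.rfl

/-- Pairs of the development from pairs of the statement. -/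
def fwd (p : A.Pair) : (ge A).Pair :=
  ⟨p.n, p.S, p.f, p.g, (par_iff p.f p.g).2 p.parallel, (dim_eq p.S).symm.trans_le p.dim_le⟩

/-- Pairs of the statement from pairs of the development. -/
def bwd (p : (ge A).Pair) : A.Pair :=
  ⟨p.n, p.S, p.f, p.g, (par_iff (S := p.S) p.f p.g).1 p.parallel, (dim_eq p.S).trans_le p.dim_le⟩

lemma isFree_of {F : A ⟶ B} (h : Adjoins F) : ∃ (E : Set (ge A).Pair)
    (l : ∀ p : E, (ge B).Hom (P259.Theta0.disc (p.1.n + 1)) p.1.S),
    P259.GlobExt.IsFree (toMap F) E l := by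
  obtain ⟨E, l, h1, h2⟩ := h
  refine ⟨{p | bwd p ∈ E}, fun p => l ⟨bwd p.1, p.2⟩, fun p => ?_, fun D G k hk => ?_⟩
  · exact (lift_iff _ _ _).2 (h1 ⟨bwd p.1, p.2⟩)
  · obtain ⟨X, rfl⟩ := ge_surj D
    obtain ⟨G, rfl⟩ := toMap_surj G
    obtain ⟨G', ⟨e1, e2⟩, e3⟩ := h2 X G (fun p => k ⟨fwd p.1, p.2⟩)
      fun p => (lift_iff _ _ _).1 (hk ⟨fwd p.1, p.2⟩)
    refine ⟨toMap G', ⟨(toMap_comp _ _).symm.trans (congrArg toMap e1), fun p => e2 ⟨bwd p.1, p.2⟩⟩, ?_⟩
    rintro M ⟨m1, m2⟩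
    obtain ⟨M, rfl⟩ := toMap_surj M
    rw [← toMap_comp] at m1
    rw [e3 M ⟨toMap_inj m1, fun p => m2 ⟨fwd p.1, p.2⟩⟩]

lemma adjoins_of {F : A ⟶ B} {E : Set (ge A).Pair}
    {l : ∀ p : E, (ge B).Hom (P259.Theta0.disc (p.1.n + 1)) p.1.S}
    (h : P259.GlobExt.IsFree (toMap F) E l) : Adjoins F := by
  refine ⟨{p | fwd p ∈ E}, fun p => l ⟨fwd p.1, p.2⟩, fun p => ?_, fun X G k hk => ?_⟩
  · exact (lift_iff _ _ _).1 (h.isLift ⟨fwd p.1, p.2⟩)
  · obtain ⟨G', ⟨e1, e2⟩, e3⟩ := h.univ (ge X) (toMap G) (fun p => k ⟨bwd p.1, p.2⟩)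
      fun p => (lift_iff _ _ _).2 (hk ⟨bwd p.1, p.2⟩)
    obtain ⟨G', rfl⟩ := toMap_surj G'
    rw [← toMap_comp] at e1
    refine ⟨G', ⟨toMap_inj e1, fun p => e2 ⟨fwd p.1, p.2⟩⟩, ?_⟩
    rintro M ⟨m1, m2⟩
    exact toMap_inj (e3 (toMap M) ⟨(toMap_comp _ _).symm.trans (congrArg toMap m1), fun p => m2 ⟨bwd p.1, p.2⟩⟩)

lemma zero_bij {B : GlobExt} (h : B = theta) (S T : Theta0) :
    Function.Bijective ((ge B).incl : (S ⟶ T) → (ge B).Hom S T) := by
  subst h
  exact ⟨fun _ _ e => E.map_injective e, fun f => E.map_surjective f⟩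

/-- A coherator of the statement gives one of the development. -/
theorem isCoherator_ge (h : A.IsCoherator) : (ge A).IsCoherator := by
  refine ⟨?_, fun {n S} f f' hf => ?_⟩
  · obtain ⟨T, ι, h0, hadj, ⟨hc⟩⟩ := h.tower
    choose E l hl using fun k => isFree_of (hadj k)
    have hι : ∀ k, T.map (homOfLE (Nat.le_succ k)) ≫ ι.app (k + 1) = ι.app k := fun k =>
      (ι.naturality _).trans (Category.comp_id _)
    refine ⟨⟨fun k => ge (T.obj k), zero_bij h0, fun k => toMap (T.map (homOfLE (Nat.le_succ k))),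
      E, l, hl, fun k => toMap (ι.app k),
      fun k => (toMap_comp _ _).symm.trans (congrArg toMap (hι k)), fun D G hG => ?_⟩⟩
    obtain ⟨X, rfl⟩ := ge_surj D
    choose G' hG' using fun k => toMap_surj (G k)
    let c : Cocone T := Cocone.mk X (NatTrans.ofSequence G' fun k => by
      refine (toMap_inj ?_).trans (Category.comp_id (G' k)).symm
      rw [toMap_comp, hG', hG']
      exact hG k)
    obtain ⟨M, m1, m2⟩ := hc.existsUnique c
    refine ⟨toMap M, fun k => ?_, fun N hN => ?_⟩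
    · exact (toMap_comp _ _).symm.trans ((congrArg toMap (m1 k)).trans (hG' k))
    · obtain ⟨N, rfl⟩ := toMap_surj N
      exact congrArg toMap (m2 N fun k =>
        toMap_inj ((toMap_comp _ _).trans ((hN k).trans (hG' k).symm)))
  · obtain ⟨k, hk⟩ := h.lifts (S := S) f f' ((par_iff (S := S) f f').1 hf)
    exact ⟨k, (lift_iff (S := S) f f' k).2 hk⟩

theorem tower_of (T : P259.GlobExt.Tower (ge A)) (h0 : T.stage 0 = ge theta) :
    ∃ (T : ℕ ⥤ GlobExt) (ι : T ⟶ (Functor.const ℕ).obj A), T.obj 0 = theta ∧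
    (∀ k, Adjoins (T.map (homOfLE (Nat.le_succ k)))) ∧ Nonempty (IsColimit (Cocone.mk A ι)) := by
  obtain ⟨Q, hQ0, hQ⟩ : ∃ Q : ℕ → GlobExt, Q 0 = theta ∧ (fun k => ge (Q k)) = T.stage := by
    refine ⟨fun k => Nat.casesOn k theta fun k => ofG (T.stage (k + 1)), rfl, funext fun k => ?_⟩
    cases k with
    | zero => exact h0.symm
    | succ k => exact ge_ofG _
  obtain ⟨stage, zero, next, pairs, lift, free, toC, toC_next, colim⟩ := T
  dsimp only at hQ
  subst hQ
  choose N hN using fun k => toMap_surj (next k)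
  choose I hI using fun k => toMap_surj (toC k)
  have hNI : ∀ k, N k ≫ I (k + 1) = I k := fun k => toMap_inj (by
    rw [toMap_comp, hN, hI, hI]
    exact toC_next k)
  have hm : ∀ k, (Functor.ofSequence N).map (homOfLE (Nat.le_succ k)) = N k :=
    Functor.ofSequence_map_homOfLE_succ N
  refine ⟨Functor.ofSequence N, NatTrans.ofSequence I fun k => ?_, hQ0, fun k => ?_, ⟨?_⟩⟩
  · exact ((congrArg (· ≫ I (k + 1)) (hm k)).trans (hNI k)).trans (Category.comp_id (I k)).symm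
  · rw [hm]
    have h := free k
    rw [← hN] at h
    exact adjoins_of (F := N k) h
  · refine IsColimit.ofExistsUnique fun s => ?_
    obtain ⟨M, m1, m2⟩ := colim (ge s.pt) (fun k => toMap (s.ι.app k)) fun k => by
      rw [← hN, ← hm]
      exact (toMap_comp _ _).symm.trans (congrArg toMap (s.w _))
    obtain ⟨M, rfl⟩ := toMap_surj M
    refine ⟨M, fun k => toMap_inj ?_, fun M' hM' => toMap_inj (m2 _ fun k => ?_)⟩
    · have h := m1 k
      rw [← hI] at h
      exact (toMap_comp _ _).trans h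
    · rw [← hI]
      exact (toMap_comp _ _).symm.trans (congrArg toMap (hM' k))

open P259.GlobExt in
/-- The free tower on `Θ₀`. -/
noncomputable def sq0 : Sq where
  stage k := Nat.rec (motive := fun _ => P259.GlobExt) (ge theta) (fun _ C => freeExt C Set.univ) k
  next _ := toFree _ Set.univ

open P259.GlobExt in
/-- The free tower presents its colimit. -/
noncomputable def tower0 : Tower sq0.col where
  stage := sq0.stage
  zero := zero_bij rfl
  next := sq0.next
  pairs _ := Set.univ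
  lift _ p := freeLift _ Set.univ p
  free _ := isFree_freeExt _ Set.univ
  toC := sq0.toCol
  toC_next := sq0.next_toCol
  colim := sq0.col_univ

open P259.GlobExt in
theorem sq0_lifts {n : ℕ} {S : Theta0} (hS : S.dim ≤ n + 1)
    (f g : sq0.col.Hom (P259.Theta0.disc n) S) (h : sq0.col.Parallel f g) :
    ∃ w, sq0.col.IsLift f g w := by
  obtain ⟨k, f', g', rfl, rfl, h'⟩ := sq0.exists_parallel f g h
  let p : (Set.univ : Set (P259.GlobExt.Pair (sq0.stage k))) := ⟨⟨n, S, f', g', h', hS⟩, trivial⟩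
  have hl := ((isFree_freeExt (sq0.stage k) Set.univ).isLift p).map (sq0.toCol (k + 1))
  refine ⟨(sq0.toCol (k + 1)).map (freeLift _ Set.univ p : (sq0.stage (k + 1)).Hom _ _), ?_⟩
  have e := sq0.next_toCol k
  have e1 := congrArg (fun F : Map _ _ => F.map f') e
  have e2 := congrArg (fun F : Map _ _ => F.map g') e
  rw [← e1, ← e2]
  exact hl

theorem coherator_of (D : P259.GlobExt) (T : D.Tower) (h0 : T.stage 0 = ge theta)
    (h : D.IsCoherator) : Nonempty Coherator := by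
  obtain ⟨A, rfl⟩ := ge_surj D
  refine ⟨⟨A, tower_of T h0, fun {n S} f f' hf => ?_⟩⟩
  obtain ⟨k, hk⟩ := h.lifts (S := S) f f' ((par_iff f f').2 hf)
  exact ⟨k, (lift_iff f f' k).1 hk⟩

/-- Coherators exist. -/
theorem nonempty_coherator : Nonempty Coherator :=
  coherator_of _ tower0 rfl
    (P259.GlobExt.isCoherator_of_lifts tower0 fun {_ _} hS f g h => sq0_lifts hS f g h)

end Br

end Vale.Agent.P259Z
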