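import Vale.Agent.P259Z.Br3

/-!
Groupoids, weak equivalences and disc functors of the statement and of the development.
-/

open CategoryTheory Limits Opposite CompactlyGenerated

namespace Vale.Agent.P259Z

open Vale.Agent.P259 (Tab Theta0)

namespace Br

open GlobExt Coherator

/-- The comparison functor. -/
noncomputable def Ψ (A : GlobExt) : (ge A).Obj ⥤ A.C where
  obj S := A.J.obj S.sum
  map f := f
  map_id _ := rfl
  map_comp _ _ := rfl

instance (A : GlobExt) : (Ψ A).Faithful where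
  map_injective h := h

instance (A : GlobExt) : (Ψ A).Full where
  map_surjective f := ⟨f, rfl⟩

instance (A : GlobExt) : (Ψ A).EssSurj where
  mem_essImage c := by
    obtain ⟨S, hS⟩ := A.bij.2 c
    exact ⟨.of S, ⟨eqToIso hS⟩⟩

instance (A : GlobExt) : (Ψ A).IsEquivalence where

variable {A : Coherator}

lemma isGpd_iff (X : A.Cᵒᵖ ⥤ Type) :
    A.IsGpd (show A.Psh from X) ↔ (ge A.toGlobExt).isMd ⊤ ((Ψ A.toGlobExt).op ⋙ X) := by
  have key : ∀ {l : ℕ} (t : Tab l) (j i : ℕ) (hl : j < l) (hi : j < i),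
      IsPullback (X.map (A.J.map (E.map (P259.Theta0.inl t j i hl hi))).op)
        (X.map (A.J.map (E.map (P259.Theta0.inr t j i hl hi))).op)
        (X.map (A.J.map (E.map (P259.Theta0.face true hl ≫ P259.Theta0.lastIncl t))).op)
        (X.map (A.J.map (E.map (P259.Theta0.face false hi))).op) ↔
      IsPullback (X.map (A.J.map (Θ₀.inl t hl hi)).op) (X.map (A.J.map (Θ₀.inr t hl hi)).op)
        (X.map (A.J.map (Θ₀.tgtLast t hl)).op) (X.map (A.J.map (Θ₀.srcDisc hi)).op) := by
    intro l t j i hl hi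
    rw [E_tgt, E_src, E_inl, E_inr]
    exact Iff.rfl
  constructor
  · intro h
    exact ⟨fun t j i hl hi => (key t j i hl hi).2 (h t hl hi), P259.GlobExt.isThin_top _⟩
  · intro h l t j i hl hi
    exact (key t j i hl hi).1 (h.1 t j i hl hi)

/-- Precomposition with the comparison functor. -/
noncomputable abbrev preΨ' (A : Coherator) :
    (A.Cᵒᵖ ⥤ Type) ⥤ ((ge A.toGlobExt).Objᵒᵖ ⥤ Type) :=
  (Functor.whiskeringLeft _ _ _).obj (Ψ A.toGlobExt).op

/-- Precomposition with the comparison functor. -/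
noncomputable def preΨ (A : Coherator) : A.Psh ⥤ ((ge A.toGlobExt).Objᵒᵖ ⥤ Type) := preΨ' A

instance (A : Coherator) : (preΨ A).IsEquivalence := inferInstanceAs (preΨ' A).IsEquivalence

/-- The comparison of the categories of groupoids. -/
noncomputable abbrev EG' (A : Coherator) : A.IsGpd.FullSubcategory ⥤ (ge A.toGlobExt).Gpd :=
  ObjectProperty.lift _ (A.IsGpd.ι ⋙ preΨ A) fun X => (isGpd_iff X.obj).1 X.property

/-- The comparison of the categories of groupoids. -/
noncomputable def EG (A : Coherator) : A.Gpd ⥤ (ge A.toGlobExt).Gpd := EG' A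

instance (A : Coherator) : (EG A).Faithful where
  map_injective {X Y} f g h := ObjectProperty.hom_ext A.IsGpd ((preΨ A).map_injective
    (X := X.psh) (Y := Y.psh) (a₁ := nat f) (a₂ := nat g)
    (congrArg ((ge A.toGlobExt).isMd ⊤).ι.map h))

instance (A : Coherator) : (EG A).Full where
  map_surjective {X Y} f := by
    obtain ⟨g, hg⟩ := (preΨ A).map_surjective (X := X.psh) (Y := Y.psh)
      (((ge A.toGlobExt).isMd ⊤).ι.map f)
    exact ⟨ObjectProperty.homMk (P := A.IsGpd) g, ObjectProperty.hom_ext _ hg⟩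

instance (A : Coherator) : (EG A).EssSurj where
  mem_essImage Z := by
    let X := (preΨ A).objPreimage Z.obj
    let e : (preΨ A).obj X ≅ Z.obj := (preΨ A).objObjPreimageIso Z.obj
    have h1 := P259.S.isMd_of_iso _ _ e.symm Z.property
    exact ⟨⟨X, (isGpd_iff X).2 h1⟩, ⟨ObjectProperty.isoMk _ e⟩⟩

instance (A : Coherator) : (EG A).IsEquivalence where

/-- The identities of the development. -/
def ident (O : A.Ops) : (ge A.toGlobExt).Ident where
  κ := O.κ
  isLift n := (lift_iff _ _ _).2 ⟨κσ O n, κτ O n⟩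

lemma src_eq {X : A.Gpd} {n : ℕ} (w : Cell X (n + 1)) :
    P259.GlobExt.src (X := (EG A).obj X) w = src w :=
  congrArg (fun f => act (X := X) (A.J.map f) w) (E_σ n)

lemma tgt_eq {X : A.Gpd} {n : ℕ} (w : Cell X (n + 1)) :
    P259.GlobExt.tgt (X := (EG A).obj X) w = tgt w :=
  congrArg (fun f => act (X := X) (A.J.map f) w) (E_τ n)

lemma rel_iff {X : A.Gpd} {n : ℕ} (u v : Cell X n) :
    Rel u v ↔ P259.GlobExt.Rel (X := (EG A).obj X) u v :=
  exists_congr fun w => by rw [src_eq, tgt_eq]; exact Iff.rfl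

lemma one_eq (O : A.Ops) {X : A.Gpd} (x : Cell X 0) :
    ∀ n, P259.GlobExt.one (ident O) (X := (EG A).obj X) x n = one O x n
  | 0 => rfl
  | n + 1 => congrArg (act (X := X) (O.κ n)) (one_eq O x n)

/-- The comparison of loops. -/
def loopEquiv (O : A.Ops) {X : A.Gpd} (x : Cell X 0) (n : ℕ) :
    Loop O x n ≃ P259.GlobExt.Loops (ident O) (X := (EG A).obj X) x n where
  toFun u := ⟨u.cell, (src_eq _).trans (u.src_eq.trans (one_eq O x n).symm),
    (tgt_eq _).trans (u.tgt_eq.trans (one_eq O x n).symm)⟩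
  invFun u := ⟨u.1, (src_eq _).symm.trans (u.2.1.trans (one_eq O x n)),
    (tgt_eq _).symm.trans (u.2.2.trans (one_eq O x n))⟩
  left_inv _ := rfl
  right_inv _ := rfl

lemma bij_iff {α β α' β' : Type} {r : α → α → Prop} {s : β → β → Prop} {r' : α' → α' → Prop}
    {s' : β' → β' → Prop} (f : α → β) (f' : α' → β') (hf : ∀ ⦃x y⦄, r x y → s (f x) (f y))
    (hf' : ∀ ⦃x y⦄, r' x y → s' (f' x) (f' y)) (a : α ≃ α') (b : β ≃ β')
    (ha : ∀ x y, r x y ↔ r' (a x) (a y)) (hb : ∀ x y, s x y ↔ s' (b x) (b y))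
    (c : ∀ x, b (f x) = f' (a x)) :
    Function.Bijective (Quot.map f hf) ↔ Function.Bijective (Quot.map f' hf') := by
  have e : Quot.congr b hb ∘ Quot.map f hf = Quot.map f' hf' ∘ Quot.congr a ha := by
    funext x
    obtain ⟨x, rfl⟩ := Quot.exists_rep x
    exact congrArg (Quot.mk s') (c x)
  rw [← (Quot.congr b hb).comp_bijective, e, Equiv.bijective_comp]

theorem weq_eq (O : A.Ops) : weq O = (P259.GlobExt.weq (ident O)).inverseImage (EG A) := by
  ext X Y f
  refine and_congr ?_ (forall_congr' fun x => forall_congr' fun n => ?_)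
  · exact bij_iff (r := Rel (X := X) (n := 0)) (s := Rel (X := Y) (n := 0)) (mapEl f)
      (P259.GlobExt.mapCell ((EG A).map f)) (fun _ _ h => Rel.map f h)
      (fun _ _ h => h.map ((EG A).map f)) (Equiv.refl _) (Equiv.refl _) rel_iff rel_iff
      fun _ => rfl
  · refine bij_iff (r := fun u v : Loop O x n => Rel u.1 v.1)
      (s := fun u v : Loop O (mapEl f x) n => Rel u.1 v.1) (Loop.map O f) _
      (fun _ _ h => Rel.map f h) (fun _ _ h => h.map ((EG A).map f)) (loopEquiv O x n)
      (loopEquiv O (mapEl f x) n) (fun u v => rel_iff u.1 v.1) (fun u v => rel_iff u.1 v.1)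
      fun _ => rfl

/-! ### Discs -/

/-- The reflection `x ↦ (-x_{n-1}, …, -x_0)`. -/
noncomputable def refl {n : ℕ} (x : EuclideanSpace ℝ (Fin n)) : EuclideanSpace ℝ (Fin n) :=
  WithLp.toLp 2 fun i => -x i.rev

lemma refl_refl {n : ℕ} (x : EuclideanSpace ℝ (Fin n)) : refl (refl x) = x := by
  ext i
  simp [refl]

lemma norm_refl {n : ℕ} (x : EuclideanSpace ℝ (Fin n)) : ‖refl x‖ ^ 2 = ‖x‖ ^ 2 := by
  rw [EuclideanSpace.real_norm_sq_eq, EuclideanSpace.real_norm_sq_eq]
  simp only [refl, neg_sq]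
  exact Equiv.sum_comp Fin.revPerm fun i => x i ^ 2

lemma continuous_refl {n : ℕ} : Continuous (refl (n := n)) := by
  refine (PiLp.continuous_toLp 2 _).comp (continuous_pi fun i => ?_)
  fun_prop

/-- The reflection of the ball. -/
noncomputable def reflB {n : ℕ} (x : Ball n) : P259.Ball n :=
  ⟨refl x.1, (P259.mem_ball_iff _).2 ((norm_refl x.1).trans_le
    (pow_le_one₀ (norm_nonneg _) x.2))⟩

/-- The reflection of the ball. -/
noncomputable def reflB' {n : ℕ} (x : P259.Ball n) : Ball n :=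
  ⟨refl x.1, (sq_le_one_iff₀ (norm_nonneg _)).1
    ((norm_refl x.1).trans_le ((P259.mem_ball_iff _).1 x.2))⟩

/-- The reflection of the ball. -/
noncomputable def ρ (n : ℕ) : (ball n).toTop ≅ P259.ballData.obj n :=
  TopCat.isoOfHomeo
    { toFun := reflB
      invFun := reflB'
      left_inv := fun x => Subtype.ext (refl_refl _)
      right_inv := fun x => Subtype.ext (refl_refl _)
      continuous_toFun := (continuous_refl.comp continuous_subtype_val).subtype_mk _
      continuous_invFun := (continuous_refl.comp continuous_subtype_val).subtype_mk _ }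

lemma refl_hemiPt (s : ℝ) {n : ℕ} (x : EuclideanSpace ℝ (Fin n)) :
    refl (hemiPt s x) = P259.snocE (refl x) (-s * √(1 - ‖refl x‖ ^ 2)) := by
  rw [norm_refl]
  ext i
  refine Fin.lastCases ?_ (fun i => ?_) i
  · simp [refl, hemiPt, P259.snocE]
  · simp [refl, hemiPt, P259.snocE, Fin.rev_castSucc]

lemma upper_ρ (n : ℕ) : compactlyGeneratedToTop.map (upper n) ≫ (ρ (n + 1)).hom =
    (ρ n).hom ≫ P259.ballF.map (P259.Globe.σ n) := by
  rw [show P259.ballF.map (P259.Globe.σ n) = P259.ballData.s n from P259.ballData.functor_σ n]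
  apply TopCat.hom_ext
  apply ContinuousMap.ext
  intro x
  exact Subtype.ext (refl_hemiPt 1 x.1)

lemma lower_ρ (n : ℕ) : compactlyGeneratedToTop.map (lower n) ≫ (ρ (n + 1)).hom =
    (ρ n).hom ≫ P259.ballF.map (P259.Globe.τ n) := by
  rw [show P259.ballF.map (P259.Globe.τ n) = P259.ballData.t n from P259.ballData.functor_τ n]
  apply TopCat.hom_ext
  apply ContinuousMap.ext
  intro x
  refine Subtype.ext ((refl_hemiPt (-1) x.1).trans ?_)
  rw [neg_neg]
  rfl

lemma conj_nat {K : Type*} [Category K] {a a' b b' c c' : K} {f : a ⟶ a'} {u : b ⟶ b'} {v : c ⟶ c'}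
    {e : a ⟶ b} {e' : a' ⟶ b'} {r : b ⟶ c} {r' : b' ⟶ c'} (h : f ≫ e' = e ≫ u)
    (h' : u ≫ r' = r ≫ v) : f ≫ e' ≫ r' = (e ≫ r) ≫ v := by
  rw [← Category.assoc, h, Category.assoc, h', Category.assoc]

/-- The disc functor of the development attached to one of the statement. -/
noncomputable def toDisc (Δ : DiscFunctor A) : P259.DiscFunctor (ge A.toGlobExt) where
  D := Ψ A.toGlobExt ⋙ Δ.D ⋙ compactlyGeneratedToTop
  glue t j i hl hi := P259.S.isPushout_map_cg (sums_E Δ.sums t j i hl hi)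
  disc := NatIso.ofComponents
    (fun X => compactlyGeneratedToTop.mapIso (Δ.discs.e X.dim) ≪≫ ρ X.dim) fun {X Y} f =>
    (P259.Globe.natTrans
      (F := (ge A.toGlobExt).discF ⋙ Ψ A.toGlobExt ⋙ Δ.D ⋙ compactlyGeneratedToTop)
      (G := P259.ballF) (fun n => compactlyGeneratedToTop.map (Δ.discs.e n).hom ≫ (ρ n).hom)
      (fun n => by
        have h := congrArg compactlyGeneratedToTop.map (Δ.discs.σ n)
        rw [← E_σ] at h
        exact conj_nat h (upper_ρ n))
      (fun n => by
        have h := congrArg compactlyGeneratedToTop.map (Δ.discs.τ n)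
        rw [← E_τ] at h
        exact conj_nat h (lower_ρ n))).naturality f

/-- The two forms of the fundamental groupoid functor. -/
noncomputable def piIso (Δ : DiscFunctor A) : Δ.Pi ⋙ EG A ≅ (toDisc Δ).PiCG :=
  NatIso.ofComponents (fun Y => ObjectProperty.isoMk _ (NatIso.ofComponents
    (fun S => (fullyFaithfulCompactlyGeneratedToTop.homEquiv
      (X := Δ.D.obj (A.J.obj S.unop.sum)) (Y := Y)).toIso) (fun _ => rfl))) (fun _ => rfl)

end Br

end Vale.Agent.P259Z
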