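import Vale.Agent.P259.Tabs
import Mathlib.CategoryTheory.PathCategory.Basic
import Mathlib.CategoryTheory.Quotient
import Mathlib.CategoryTheory.Category.Cat
import Mathlib.CategoryTheory.InducedCategory
import Mathlib.CategoryTheory.Limits.FunctorCategory.Basic
import Mathlib.CategoryTheory.Limits.Types.Colimits
import Mathlib.CategoryTheory.Limits.Types.Pullbacks
import Mathlib.CategoryTheory.Limits.Shapes.Pullback.IsPullback.Basic
import Mathlib.CategoryTheory.ObjectProperty.FullSubcategory

/-!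
The globe category, globular sums, `Θ₀`, globular extensions and coherators, as posed.
-/

open CategoryTheory Limits Opposite

namespace Vale.Agent.P259Z

open Vale.Agent.P259 (Tab Theta0)

/-! ### The globe category, by generators and relations -/

/-- The vertices `D_n` of the generating quiver. -/
structure Vx where
  n : ℕ

/-- The generating arrows `σ_n, τ_n : D_n ⟶ D_{n+1}`. -/
inductive Gen : ℕ → ℕ → Type
  | σ (n : ℕ) : Gen n (n + 1)
  | τ (n : ℕ) : Gen n (n + 1)

instance : Quiver Vx := ⟨fun a b => Gen a.n b.n⟩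

/-- The vertex `D_n`, as an object of the free category on the quiver. -/
def vx (n : ℕ) : Paths Vx := (Paths.of Vx).obj ⟨n⟩

/-- A generator, as a morphism of the free category on the quiver. -/
def Gen.path {n m : ℕ} (g : Gen n m) : vx n ⟶ vx m :=
  (Paths.of Vx).map (X := ⟨n⟩) (Y := ⟨m⟩) g

/-- The relations `σ_{n+1} σ_n = τ_{n+1} σ_n` and `σ_{n+1} τ_n = τ_{n+1} τ_n`. -/
inductive GRel : ∀ ⦃X Y : Paths Vx⦄, (X ⟶ Y) → (X ⟶ Y) → Prop
  | σ (n : ℕ) : GRel ((Gen.σ n).path ≫ (Gen.σ (n + 1)).path) ((Gen.σ n).path ≫ (Gen.τ (n + 1)).path)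
  | τ (n : ℕ) : GRel ((Gen.τ n).path ≫ (Gen.σ (n + 1)).path) ((Gen.τ n).path ≫ (Gen.τ (n + 1)).path)

/-- The relations, as a relation on the morphisms of the free category. -/
def grel : HomRel (Paths Vx) := fun _ _ f g => GRel f g

/-- The globe category: the free category on the generators modulo the relations. -/
def Globe : Type := CategoryTheory.Quotient grel

instance instGlobe : SmallCategory Globe := CategoryTheory.Quotient.category grel

namespace Globe

/-- The quotient functor. -/
def proj : Paths Vx ⥤ Globe := Quotient.functor grel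

/-- The object `D_n`. -/
def D (n : ℕ) : Globe := proj.obj (vx n)

/-- `σ_n : D_n ⟶ D_{n+1}`. -/
def σ (n : ℕ) : D n ⟶ D (n + 1) := proj.map (Gen.σ n).path

/-- `τ_n : D_n ⟶ D_{n+1}`. -/
def τ (n : ℕ) : D n ⟶ D (n + 1) := proj.map (Gen.τ n).path

/-- The composite `g_{i-1} ⋯ g_j : D_j ⟶ D_i` for `j < i` (used for `g = σ` and `g = τ`). -/
def iter (g : ∀ n, D n ⟶ D (n + 1)) {j i : ℕ} (h : j < i) : D j ⟶ D i :=
  Nat.leRec (motive := fun i _ => D j ⟶ D i) (g j) (fun k _ f => f ≫ g k) h

end Globe

open Globe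

/-! ### Globular sums -/

/-- Presheaves on the globe category. -/
def GSet : Type 1 := Globeᵒᵖ ⥤ Type

instance instGSet : Category.{0} GSet := Functor.category

instance instPushouts : HasPushouts GSet := inferInstanceAs (HasPushouts (Globeᵒᵖ ⥤ Type))

/-- The representable presheaf `D_n`. -/
def yD (n : ℕ) : GSet := yoneda.obj (D n)

/-- The map of representable presheaves given by a map `D_n ⟶ D_m` of the globe category. -/
def yMap {n m : ℕ} (f : D n ⟶ D m) : yD n ⟶ yD m := yoneda.map f

/-- A presheaf `X` with a map `D_l ⟶ X` (the last disc). -/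
structure Ptd (l : ℕ) : Type 1 where
  X : GSet
  last : yD l ⟶ X

/-- The pushout `X ⨿_{D_j} D_i`: the `j`-target of the last disc of `X` is glued to the
`j`-source of `D_i`. -/
noncomputable def Ptd.glue {l j i : ℕ} (S : Ptd l) (hl : j < l) (hi : j < i) : Ptd i :=
  ⟨pushout (yMap (iter τ hl) ≫ S.last) (yMap (iter σ hi)), pushout.inr _ _⟩

/-- The globular sum `D_{i_1} ⨿_{D_{j_1}} ⋯ ⨿_{D_{j_{k-1}}} D_{i_k}` of a table of dimensions, an
iterated pushout of presheaves, with the inclusion of its last disc. -/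
noncomputable def gsum {l : ℕ} (t : Tab l) : Ptd l :=
  Tab.rec (motive := fun l _ => Ptd l) (fun i => ⟨yD i, 𝟙 _⟩)
    (fun _ _ _ hl hi S => S.glue hl hi) t

/-- The globular sum of a table, as a presheaf. -/
noncomputable def psh (S : Theta0) : GSet := (gsum S.tab).X

/-- The dimension `max_l i_l` of a table. -/
noncomputable def tdim {l : ℕ} (t : Tab l) : ℕ :=
  Tab.rec (motive := fun _ _ => ℕ) (fun i => i) (fun _ _ i _ _ d => max d i) t

/-- The category `Θ₀` of globular sums: one object for each table of dimensions, and the maps of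
presheaves between the globular sums. -/
def Θ₀ : Type := InducedCategory GSet psh

noncomputable instance instΘ₀ : SmallCategory Θ₀ := InducedCategory.instCategory (F := psh)

namespace Θ₀

/-- A map of presheaves between globular sums, as a morphism of `Θ₀`. -/
noncomputable def mk {S T : Θ₀} (f : psh S ⟶ psh T) : S ⟶ T := InducedCategory.homMk f

/-- The globular sum of a table. -/
def sum {l : ℕ} (t : Tab l) : Θ₀ := (⟨t⟩ : Theta0)

/-- The dimension of a globular sum. -/
noncomputable def dim (S : Θ₀) : ℕ := tdim (Theta0.tab S)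

/-- The disc `D_n`. -/
abbrev disc (n : ℕ) : Θ₀ := sum (.disc n)

/-- `σ_n` in `Θ₀`. -/
noncomputable def σ (n : ℕ) : disc n ⟶ disc (n + 1) :=
  mk (yMap (Globe.σ n))

/-- `τ_n` in `Θ₀`. -/
noncomputable def τ (n : ℕ) : disc n ⟶ disc (n + 1) :=
  mk (yMap (Globe.τ n))

section

variable {l : ℕ} (t : Tab l) {j i : ℕ} (hl : j < l) (hi : j < i)

/-- The `j`-target `D_j ⟶ S` of the last disc of `S`. -/
noncomputable def tgtLast : disc j ⟶ sum t :=
  mk (yMap (iter Globe.τ hl) ≫ (gsum t).last)

/-- The `j`-source `D_j ⟶ D_i`. -/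
noncomputable def srcDisc : disc j ⟶ disc i :=
  mk (yMap (iter Globe.σ hi))

/-- The map `S ⟶ S ⨿_{D_j} D_i`. -/
noncomputable def inl : sum t ⟶ sum (t.glue j i hl hi) :=
  mk (pushout.inl (yMap (iter Globe.τ hl) ≫ (gsum t).last) (yMap (iter Globe.σ hi)))

/-- The map `D_i ⟶ S ⨿_{D_j} D_i`. -/
noncomputable def inr : disc i ⟶ sum (t.glue j i hl hi) :=
  mk (gsum (t.glue j i hl hi)).last

end

end Θ₀

open Θ₀

/-- `F` preserves globular sums: it sends the squares `D_j, S, D_i, S ⨿_{D_j} D_i`, by which the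
globular sums are iterated pushouts, to pushout squares. -/
def PreservesSums {K : Type*} [Category.{0} K] (F : Θ₀ ⥤ K) : Prop :=
  ∀ {l : ℕ} (t : Tab l) {j i : ℕ} (hl : j < l) (hi : j < i),
    IsPushout (F.map (tgtLast t hl)) (F.map (srcDisc hi)) (F.map (inl t hl hi))
      (F.map (inr t hl hi))

/-! ### Globular extensions and coherators -/

/-- A globular extension: a small category with a bijective-on-objects functor from `Θ₀` which
preserves globular sums. -/
structure GlobExt : Type 1 where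
  C : Type
  [cat : SmallCategory C]
  J : Θ₀ ⥤ C
  bij : Function.Bijective J.obj
  sums : PreservesSums J

attribute [instance] GlobExt.cat

/-- Morphisms of globular extensions: functors under `Θ₀`. -/
structure GHom (A B : GlobExt) : Type where
  val : A.C ⥤ B.C
  property : A.J ⋙ val = B.J

/-- The identity functor. -/
def GHom.id (A : GlobExt) : GHom A A := ⟨𝟭 A.C, A.J.comp_id⟩

/-- The composite functor. -/
def GHom.comp {A B X : GlobExt} (F : GHom A B) (G : GHom B X) : GHom A X :=
  ⟨F.1 ⋙ G.1, by rw [← Functor.assoc, F.2, G.2]⟩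

/-- The category of globular extensions. -/
instance instGlobExt : Category.{0} GlobExt where
  Hom := GHom
  id := GHom.id
  comp := GHom.comp
  id_comp _ := rfl
  comp_id _ := rfl
  assoc _ _ _ := rfl

/-- The underlying category of a globular extension. -/
def toCat : GlobExt ⥤ Cat.{0, 0} where
  obj A := Cat.of A.C
  map F := F.1.toCatHom

lemma preservesSums_id : PreservesSums (𝟭 Θ₀) := fun t _ _ hl hi =>
  IsPushout.of_map_of_faithful (inducedFunctor psh)
    (IsPushout.of_hasPushout (yMap (iter Globe.τ hl) ≫ (gsum t).last) (yMap (iter Globe.σ hi)))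

/-- `Θ₀` itself, with the identity functor. -/
noncomputable def theta : GlobExt where
  C := Θ₀
  J := 𝟭 Θ₀
  bij := Function.bijective_id
  sums := preservesSums_id

namespace GlobExt

/-- The maps `S ⟶ T` of a globular extension. -/
abbrev H (A : GlobExt) (S T : Θ₀) : Type := A.J.obj S ⟶ A.J.obj T

/-- The action of a morphism of globular extensions on maps. -/
noncomputable def app {A B : GlobExt} (F : GHom A B) {S T : Θ₀} (f : A.H S T) : B.H S T :=
  eqToHom (Functor.congr_obj F.2 S).symm ≫ F.1.map f ≫ eqToHom (Functor.congr_obj F.2 T)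

variable (A : GlobExt)

/-- The image of a map of `Θ₀`. -/
noncomputable abbrev j {S T : Θ₀} (u : S ⟶ T) : A.H S T := A.J.map u

/-- `f σ_n` for `f : D_{n+1} ⟶ S`. -/
noncomputable abbrev dσ {S : Θ₀} {n : ℕ} (f : A.H (disc (n + 1)) S) : A.H (disc n) S :=
  A.J.map (Θ₀.σ n) ≫ f

/-- `f τ_n` for `f : D_{n+1} ⟶ S`. -/
noncomputable abbrev dτ {S : Θ₀} {n : ℕ} (f : A.H (disc (n + 1)) S) : A.H (disc n) S :=
  A.J.map (Θ₀.τ n) ≫ f

/-- `f, g : D_n ⟶ S` are parallel. -/
def Parallel {S : Θ₀} : ∀ {n : ℕ}, A.H (disc n) S → A.H (disc n) S → Prop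
  | 0, _, _ => True
  | _ + 1, f, g => A.dσ f = A.dσ g ∧ A.dτ f = A.dτ g

/-- `h : D_{n+1} ⟶ S` is a lift of `f, g : D_n ⟶ S`. -/
def IsLift {S : Θ₀} {n : ℕ} (f g : A.H (disc n) S) (h : A.H (disc (n + 1)) S) : Prop :=
  A.dσ h = f ∧ A.dτ h = g

/-- A parallel pair `D_n ⇉ S` with `dim S ≤ n + 1`. -/
structure Pair : Type where
  n : ℕ
  S : Θ₀
  f : A.H (disc n) S
  g : A.H (disc n) S
  parallel : A.Parallel f g
  dim_le : S.dim ≤ n + 1

variable {A}

/-- The maps `D_{n+1} ⟶ S` of `B`, for a pair `D_n ⇉ S` of `A`. -/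
abbrev Pair.Fill (p : A.Pair) (B : GlobExt) : Type := B.H (disc (p.n + 1)) p.S

/-- `h` is a lift of the image of the pair `p` under `F`. -/
def Pair.Lifts (p : A.Pair) {B : GlobExt} (F : GHom A B) (h : p.Fill B) : Prop :=
  B.IsLift (app F p.f) (app F p.g) h

/-- `F : A ⟶ B` universally adjoins to `A` lifts of a set `E` of parallel pairs `D_n ⇉ S` with
`dim S ≤ n + 1`. -/
def Adjoins {B : GlobExt} (F : GHom A B) : Prop :=
  ∃ (E : Set A.Pair) (h : ∀ p : E, p.1.Fill B), (∀ p : E, p.1.Lifts F (h p)) ∧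
    ∀ (X : GlobExt) (G : GHom A X) (k : ∀ p : E, p.1.Fill X), (∀ p : E, p.1.Lifts G (k p)) →
      ∃! G' : GHom B X, F.comp G' = G ∧ ∀ p : E, app G' (h p) = k p

variable (A)

/-- Coherators: `A = colim_k A_k`, `A_0 = Θ₀`, each `A_{k+1}` universally adjoins lifts to `A_k`,
and every parallel pair in `A` has a lift. -/
structure IsCoherator : Prop where
  tower : ∃ (T : ℕ ⥤ GlobExt) (ι : T ⟶ (Functor.const ℕ).obj A), T.obj 0 = theta ∧
    (∀ k, Adjoins (T.map (homOfLE (Nat.le_succ k)))) ∧ Nonempty (IsColimit (Cocone.mk A ι))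
  lifts : ∀ {n : ℕ} {S : Θ₀} (f g : A.H (disc n) S), A.Parallel f g → ∃ h, A.IsLift f g h

end GlobExt

/-- Coherators. -/
structure Coherator : Type 1 extends GlobExt where
  coh : toGlobExt.IsCoherator

end Vale.Agent.P259Z
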