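import Vale.Agent.P259Z.GpdL2
import Mathlib.Algebra.Group.MinimalAxioms
import Mathlib.Algebra.Group.Hom.Defs
import Mathlib.CategoryTheory.MorphismProperty.Basic

/-!
The homotopy groups of `C`-`∞`-groupoids and the weak equivalences, as posed.
-/

open CategoryTheory Limits Opposite

namespace Vale.Agent.P259Z

open Θ₀

namespace Coherator

variable {A : Coherator} {X Y : A.Gpd} (O : A.Ops)

lemma mul_rel (x : Cell X 0) (n : ℕ) ⦃u u' : Loop O x n⦄ (h : (loopSetoid O x n).r u u')
    ⦃v v' : Loop O x n⦄ (h' : (loopSetoid O x n).r v v') :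
    (loopSetoid O x n).r (Loop.mul O u v) (Loop.mul O u' v') :=
  comp_rel O (u.composable O v) (u'.composable O v') h h'

noncomputable instance instMul (x : Cell X 0) (n : ℕ) : Mul (π O x n) :=
  ⟨Quotient.map₂ (sa := loopSetoid O x n) (sb := loopSetoid O x n) (sc := loopSetoid O x n)
    (Loop.mul O) (mul_rel O x n)⟩

noncomputable instance instOne (x : Cell X 0) (n : ℕ) : One (π O x n) :=
  ⟨π.mk O (Loop.one O x n)⟩

lemma π_exists_inv {x : Cell X 0} {n : ℕ} (a : π O x n) : ∃ b, b * a = 1 := by
  obtain ⟨u, rfl⟩ := π.surj O a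
  obtain ⟨v, h⟩ := loop_inv O u
  exact ⟨π.mk O v, h⟩

noncomputable instance instInv (x : Cell X 0) (n : ℕ) : Inv (π O x n) :=
  ⟨fun a => (π_exists_inv O a).choose⟩

/-- The group structure of `π_{n+1}(X, x)`, by composition of cells. -/
noncomputable instance instGroup (x : Cell X 0) (n : ℕ) : Group (π O x n) :=
  Group.ofLeftAxioms (fun a b c => Quotient.inductionOn₃ a b c (loop_assoc O))
    (fun a => Quotient.inductionOn a (loop_one O)) fun a => (π_exists_inv O a).choose_spec

lemma map_rel (f : X ⟶ Y) (x : Cell X 0) (n : ℕ) ⦃u v : Loop O x n⦄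
    (h : (loopSetoid O x n).r u v) :
    (loopSetoid O (mapEl f x) n).r (Loop.map O f u) (Loop.map O f v) := Rel.map f h

/-- The map induced on `π_{n+1}`. -/
def πFun (f : X ⟶ Y) (x : Cell X 0) (n : ℕ) : π O x n → π O (mapEl f x) n :=
  Quotient.map (sa := loopSetoid O x n) (sb := loopSetoid O (mapEl f x) n) (Loop.map O f)
    (map_rel O f x n)

/-- The homomorphism induced on `π_{n+1}`. -/
noncomputable def πMap (f : X ⟶ Y) (x : Cell X 0) (n : ℕ) : π O x n →* π O (mapEl f x) n :=
  MonoidHom.mk' (πFun O f x n) fun a b =>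
    Quotient.inductionOn₂ a b fun u v => congrArg (π.mk O) (loop_map_mul O f u v)

/-- Weak equivalences: the maps inducing a bijection on `π_0` and isomorphisms (bijective
homomorphisms) on all `π_{n+1}(X, x)`. -/
def weq : MorphismProperty A.Gpd := fun X _ f =>
  Function.Bijective (π₀Map f) ∧ ∀ (x : Cell X 0) (n : ℕ), Function.Bijective (πMap O f x n)

end Coherator

end Vale.Agent.P259Z
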