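import Vale.Agent.P259Z.Defs

/-!
`C`-`∞`-groupoids and their cells, as posed.
-/

open CategoryTheory Limits Opposite

namespace Vale.Agent.P259Z

open Vale.Agent.P259 (Tab Theta0)
open Θ₀

namespace Θ₀

/-- The table of `D_{n+1} ⨿_{D_n} D_{n+1}`. -/
abbrev two (n : ℕ) : Tab (n + 1) := (Tab.disc (n + 1)).glue n (n + 1) n.lt_succ_self n.lt_succ_self

/-- The first disc of `D_{n+1} ⨿_{D_n} D_{n+1}`. -/
noncomputable abbrev fst (n : ℕ) : disc (n + 1) ⟶ sum (two n) :=
  inl (.disc (n + 1)) n.lt_succ_self n.lt_succ_self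

/-- The second disc of `D_{n+1} ⨿_{D_n} D_{n+1}`. -/
noncomputable abbrev snd (n : ℕ) : disc (n + 1) ⟶ sum (two n) :=
  inr (.disc (n + 1)) n.lt_succ_self n.lt_succ_self

end Θ₀

/-- The function underlying a morphism of the category of sets. -/
def fn {a b : Type} (f : a ⟶ b) : a → b := f

namespace Coherator

variable (A : Coherator)

/-- Functors `Cᵒᵖ ⥤ Set`. -/
def Psh : Type 1 := A.Cᵒᵖ ⥤ Type

instance instPsh : Category.{0} A.Psh := Functor.category

variable {A}

/-- The set `X(S)`. -/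
def Psh.el (X : A.Psh) (S : Θ₀) : Type := X.obj (op (A.J.obj S))

/-- The map `X(f) : X(T) ⟶ X(S)` of `f : S ⟶ T`. -/
def Psh.res (X : A.Psh) {S T : Θ₀} (f : A.H S T) : X.el T ⟶ X.el S := X.map f.op

/-- The component `X(S) ⟶ Y(S)` of a natural transformation. -/
def Psh.app {X Y : A.Psh} (f : X ⟶ Y) (S : Θ₀) : X.el S ⟶ Y.el S :=
  NatTrans.app f (op (A.J.obj S))

variable (A)

/-- `C`-`∞`-groupoids: functors `Cᵒᵖ ⥤ Set` which send globular sums to iterated fibre
products. -/
def IsGpd : ObjectProperty A.Psh := fun X =>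
  ∀ {l : ℕ} (t : Tab l) {j i : ℕ} (hl : j < l) (hi : j < i),
    IsPullback (X.res (A.j (inl t hl hi))) (X.res (A.j (inr t hl hi)))
      (X.res (A.j (tgtLast t hl))) (X.res (A.j (srcDisc hi)))

/-- The category of `C`-`∞`-groupoids (with all natural transformations). -/
def Gpd : Type 1 := A.IsGpd.FullSubcategory

instance instGpd : Category.{0} A.Gpd := ObjectProperty.FullSubcategory.category A.IsGpd

/-- Chosen lifts: identities `κ_n : D_{n+1} ⟶ D_n`, lifts of `(1, 1)`, and compositions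
`D_{n+1} ⟶ D_{n+1} ⨿_{D_n} D_{n+1}`, lifts of (source of the first disc, target of the second). -/
structure Ops : Type where
  κ : ∀ n, A.H (disc (n + 1)) (disc n)
  κ_lift : ∀ n, A.IsLift (A.j (𝟙 (disc n))) (A.j (𝟙 (disc n))) (κ n)
  μ : ∀ n, A.H (disc (n + 1)) (sum (two n))
  μ_lift : ∀ n, A.IsLift (A.dσ (A.j (fst n))) (A.dτ (A.j (snd n))) (μ n)

variable {A}

/-- The underlying functor of an `∞`-groupoid. -/
def Gpd.psh (X : A.Gpd) : A.Psh := ObjectProperty.FullSubcategory.obj X

/-- The set `X(S)`. -/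
abbrev El (X : A.Gpd) (S : Θ₀) : Type := X.psh.el S

/-- The `n`-cells `X_n = X(D_n)`. -/
abbrev Cell (X : A.Gpd) (n : ℕ) : Type := El X (disc n)

variable {X Y : A.Gpd}

/-- The map `X(f) : X(T) → X(S)` of `f : S ⟶ T`. -/
def act {S T : Θ₀} (f : A.H S T) (x : El X T) : El X S := fn (X.psh.res f) x

/-- The source of a cell. -/
noncomputable def src {n : ℕ} (w : Cell X (n + 1)) : Cell X n := act (A.j (σ n)) w

/-- The target of a cell. -/
noncomputable def tgt {n : ℕ} (w : Cell X (n + 1)) : Cell X n := act (A.j (τ n)) w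

/-- There is an `(n+1)`-cell `u ⟶ v`. -/
def Rel {n : ℕ} (u v : Cell X n) : Prop := ∃ w : Cell X (n + 1), src w = u ∧ tgt w = v

/-- The underlying natural transformation of a morphism of `∞`-groupoids. -/
def nat (f : X ⟶ Y) : X.psh ⟶ Y.psh := InducedCategory.Hom.hom f

/-- The map induced by a morphism of `∞`-groupoids. -/
def mapEl (f : X ⟶ Y) {S : Θ₀} (x : El X S) : El Y S := fn (Psh.app (nat f) S) x

variable (O : A.Ops)

/-- The iterated identity `1^n_x` of an object `x`, with `1^0_x = x`. -/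
noncomputable def one (x : Cell X 0) (n : ℕ) : Cell X n :=
  Nat.rec (motive := fun n => Cell X n) x (fun n u => act (O.κ n) u) n

/-- The `(n+1)`-cells `1^n_x ⟶ 1^n_x`. -/
structure Loop (x : Cell X 0) (n : ℕ) : Type where
  cell : Cell X (n + 1)
  src_eq : src cell = one O x n
  tgt_eq : tgt cell = one O x n

end Coherator

end Vale.Agent.P259Z
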