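import Vale.Agent.P259Z.GpdL1

/-!
The sets `π_0(X)`, `π_{n+1}(X, x)` and the composition of cells.
-/

open CategoryTheory Limits Opposite

namespace Vale.Agent.P259Z

open Θ₀

namespace Coherator

variable {A : Coherator} {X Y : A.Gpd}

lemma rel_equiv (X : A.Gpd) (n : ℕ) : Equivalence (Rel (X := X) (n := n)) := rel_equiv' X n

/-- The relation `Rel` is an equivalence relation. -/
def relSetoid (X : A.Gpd) (n : ℕ) : Setoid (Cell X n) := ⟨Rel, rel_equiv X n⟩

/-- `π_0(X)`: the objects modulo the relation there is a `1`-cell `x ⟶ y`. -/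
def π₀ (X : A.Gpd) : Type := Quotient (relSetoid X 0)

lemma π₀_rel (f : X ⟶ Y) ⦃u v : Cell X 0⦄ (h : (relSetoid X 0).r u v) :
    (relSetoid Y 0).r (mapEl f u) (mapEl f v) := Rel.map f h

/-- The map induced on `π_0`. -/
def π₀Map (f : X ⟶ Y) : π₀ X → π₀ Y :=
  Quotient.map (sa := relSetoid X 0) (sb := relSetoid Y 0) (mapEl f) (π₀_rel f)

variable (O : A.Ops)

/-- There is an `(n+2)`-cell between the two loops. -/
def Loop.Rel {x : Cell X 0} {n : ℕ} (u v : Loop O x n) : Prop := Coherator.Rel u.cell v.cell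

lemma loop_equiv (x : Cell X 0) (n : ℕ) : Equivalence (Loop.Rel O (x := x) (n := n)) :=
  ⟨fun _ => (rel_equiv X _).refl _, (rel_equiv X _).symm, (rel_equiv X _).trans⟩

/-- The equivalence relation on loops. -/
def loopSetoid (x : Cell X 0) (n : ℕ) : Setoid (Loop O x n) := ⟨Loop.Rel O, loop_equiv O x n⟩

/-- `π_{n+1}(X, x)`: the `(n+1)`-cells `1^n_x ⟶ 1^n_x` modulo the relation there is an
`(n+2)`-cell between them. -/
def π (x : Cell X 0) (n : ℕ) : Type := Quotient (loopSetoid O x n)

/-- The class of a loop. -/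
def π.mk {x : Cell X 0} {n : ℕ} (u : Loop O x n) : π O x n := Quotient.mk _ u

/-- `x` is the element `(u, v)` of `X(D_{n+1} ⨿_{D_n} D_{n+1}) = X_{n+1} ×_{X_n} X_{n+1}`. -/
def IsPair {n : ℕ} (u v : Cell X (n + 1)) (x : El X (sum (two n))) : Prop :=
  act (A.j (fst n)) x = u ∧ act (A.j (snd n)) x = v

lemma exists_two {n : ℕ} (u v : Cell X (n + 1)) (h : tgt u = src v) : ∃ x, IsPair u v x :=
  exists_two' u v h

/-- The composite of `u : a ⟶ b` and `v : b ⟶ c`: the image of `(u, v)` under `X(μ)`. -/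
noncomputable def comp {n : ℕ} (u v : Cell X (n + 1)) (h : tgt u = src v) : Cell X (n + 1) :=
  act (O.μ n) (exists_two u v h).choose

lemma Loop.composable {x : Cell X 0} {n : ℕ} (u v : Loop O x n) : tgt u.cell = src v.cell :=
  u.tgt_eq.trans v.src_eq.symm

lemma src_comp {n : ℕ} (u v : Cell X (n + 1)) (h : tgt u = src v) : src (comp O u v h) = src u :=
  (src_μ O _).trans (congrArg src (exists_two u v h).choose_spec.1)

lemma tgt_comp {n : ℕ} (u v : Cell X (n + 1)) (h : tgt u = src v) : tgt (comp O u v h) = tgt v :=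
  (tgt_μ O _).trans (congrArg tgt (exists_two u v h).choose_spec.2)

/-- The composite of two loops. -/
noncomputable def Loop.mul {x : Cell X 0} {n : ℕ} (u v : Loop O x n) : Loop O x n :=
  ⟨comp O u.cell v.cell (u.composable O v), (src_comp O _ _ _).trans u.src_eq,
    (tgt_comp O _ _ _).trans v.tgt_eq⟩

/-- The identity loop `1^{n+1}_x`. -/
noncomputable def Loop.one (x : Cell X 0) (n : ℕ) : Loop O x n :=
  ⟨Coherator.one O x (n + 1), (src_one O x n).trans rfl, (tgt_one O x n).trans rfl⟩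

/-- The map induced on loops. -/
def Loop.map (f : X ⟶ Y) {x : Cell X 0} {n : ℕ} (u : Loop O x n) : Loop O (mapEl f x) n :=
  ⟨mapEl f u.cell,
    (act_mapEl f _ _).trans ((congrArg (mapEl f) u.src_eq).trans (mapEl_one O f x n)),
    (act_mapEl f _ _).trans ((congrArg (mapEl f) u.tgt_eq).trans (mapEl_one O f x n))⟩

end Coherator

end Vale.Agent.P259Z
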