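import Vale.Agent.P259Z.Gpd0

/-!
Lemmas on cells.
-/

open CategoryTheory Limits Opposite

namespace Vale.Agent.P259Z

open Vale.Agent.P259 (Tab Theta0)

namespace Globe

lemma iter_self (g : ∀ n, D n ⟶ D (n + 1)) (n : ℕ) (h : n < n + 1) : iter g h = g n :=
  Nat.leRec_self (motive := fun i _ => D n ⟶ D i) _ _

lemma iter_succ (g : ∀ n, D n ⟶ D (n + 1)) {j i : ℕ} (h : j < i) (h' : j < i + 1) :
    iter g h' = iter g h ≫ g i :=
  Nat.leRec_succ (motive := fun i _ => D j ⟶ D i) _ _ h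

lemma σσ (n : ℕ) : σ n ≫ σ (n + 1) = σ n ≫ τ (n + 1) :=
  ((Quotient.functor grel).map_comp _ _).symm.trans
    ((CategoryTheory.Quotient.sound grel (GRel.σ n)).trans ((Quotient.functor grel).map_comp _ _))

lemma ττ (n : ℕ) : τ n ≫ σ (n + 1) = τ n ≫ τ (n + 1) :=
  ((Quotient.functor grel).map_comp _ _).symm.trans
    ((CategoryTheory.Quotient.sound grel (GRel.τ n)).trans ((Quotient.functor grel).map_comp _ _))

end Globe

open Θ₀

namespace Θ₀

lemma σσ (n : ℕ) : σ n ≫ σ (n + 1) = σ n ≫ τ (n + 1) :=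
  InducedCategory.hom_ext ((yoneda.map_comp _ _).symm.trans
    ((congrArg yoneda.map (Globe.σσ n)).trans (yoneda.map_comp _ _)))

lemma ττ (n : ℕ) : τ n ≫ σ (n + 1) = τ n ≫ τ (n + 1) :=
  InducedCategory.hom_ext ((yoneda.map_comp _ _).symm.trans
    ((congrArg yoneda.map (Globe.ττ n)).trans (yoneda.map_comp _ _)))

lemma tgtLast_one (n : ℕ) (h : n < n + 1) : tgtLast (.disc (n + 1)) h = τ n :=
  InducedCategory.hom_ext ((Category.comp_id _).trans
    (congrArg yoneda.map (Globe.iter_self _ n h)))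

lemma srcDisc_one (n : ℕ) (h : n < n + 1) : srcDisc h = σ n :=
  InducedCategory.hom_ext (congrArg yoneda.map (Globe.iter_self _ n h))

lemma tgtLast_two (n : ℕ) (h : n < n + 1 + 1) :
    tgtLast (.disc (n + 1 + 1)) h = τ n ≫ τ (n + 1) :=
  InducedCategory.hom_ext ((Category.comp_id _).trans ((congrArg yoneda.map
    ((Globe.iter_succ _ n.lt_succ_self h).trans
      (congrArg (· ≫ Globe.τ (n + 1)) (Globe.iter_self _ n _)))).trans (yoneda.map_comp _ _)))

lemma srcDisc_two (n : ℕ) (h : n < n + 1 + 1) : srcDisc h = σ n ≫ σ (n + 1) :=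
  InducedCategory.hom_ext ((congrArg yoneda.map
    ((Globe.iter_succ _ n.lt_succ_self h).trans
      (congrArg (· ≫ Globe.σ (n + 1)) (Globe.iter_self _ n _)))).trans (yoneda.map_comp _ _))

lemma tgtLast_glue {l : ℕ} (t : Tab l) {j n : ℕ} (hl : j < l) (hi : j < n + 1) (h : n < n + 1) :
    tgtLast (t.glue j (n + 1) hl hi) h = τ n ≫ inr t hl hi :=
  InducedCategory.hom_ext (congrArg (fun f => yoneda.map f ≫ (inr t hl hi).hom)
    (Globe.iter_self _ n h))

end Θ₀

namespace Coherator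

variable {A : Coherator} {X Y : A.Gpd}

lemma isGpd (X : A.Gpd) : A.IsGpd X.psh := ObjectProperty.FullSubcategory.property X

lemma act_comp {S T U : Θ₀} (f : A.H S T) (g : A.H T U) (x : El X U) :
    act (f ≫ g) x = act f (act g x) :=
  ConcreteCategory.congr_hom (Functor.map_comp (C := A.Cᵒᵖ) (D := Type) X.psh g.op f.op) x

lemma act_id {S : Θ₀} (x : El X S) : act (𝟙 (A.J.obj S)) x = x :=
  ConcreteCategory.congr_hom (CategoryTheory.Functor.map_id (C := A.Cᵒᵖ) (D := Type) X.psh (op (A.J.obj S))) x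

lemma act_mapEl (f : X ⟶ Y) {S T : Θ₀} (g : A.H S T) (x : El X T) :
    act g (mapEl f x) = mapEl f (act g x) :=
  (ConcreteCategory.congr_hom (NatTrans.naturality (nat f) g.op) x).symm

lemma rel_act {n : ℕ} {S : Θ₀} {f g : A.H (disc n) S} (h : A.Parallel f g) (x : El X S) :
    Rel (act f x) (act g x) := by
  obtain ⟨k, h1, h2⟩ := A.coh.lifts f g h
  exact ⟨act k x, (act_comp _ _ _).symm.trans (congrArg (act · x) h1),
    (act_comp _ _ _).symm.trans (congrArg (act · x) h2)⟩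

lemma rel_act_succ {n : ℕ} {S : Θ₀} {f g : A.H (disc (n + 1)) S} (x : El X S)
    (h : A.J.map (σ n) ≫ f = A.J.map (σ n) ≫ g) (h' : A.J.map (τ n) ≫ f = A.J.map (τ n) ≫ g) :
    Rel (act f x) (act g x) :=
  rel_act (f := f) (g := g) ⟨h, h'⟩ x

lemma exists_glue {l : ℕ} (t : Tab l) {j i : ℕ} (hl : j < l) (hi : j < i) (a : El X (sum t))
    (b : Cell X i) (h : act (A.J.map (tgtLast t hl)) a = act (A.J.map (srcDisc hi)) b) :
    ∃ x : El X (sum (t.glue j i hl hi)),
      act (A.J.map (inl t hl hi)) x = a ∧ act (A.J.map (inr t hl hi)) x = b :=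
  Types.exists_of_isPullback (isGpd X t hl hi) a b h

lemma exists_two' {n : ℕ} (u v : Cell X (n + 1)) (h : tgt u = src v) :
    ∃ x : El X (sum (two n)), act (A.J.map (fst n)) x = u ∧ act (A.J.map (snd n)) x = v :=
  exists_glue _ _ _ u v (by rw [tgtLast_one, srcDisc_one]; exact h)

lemma two_w (A : Coherator) (n : ℕ) :
    A.J.map (τ n) ≫ A.J.map (fst n) = A.J.map (σ n) ≫ A.J.map (snd n) := by
  have h := (A.sums (.disc (n + 1)) n.lt_succ_self n.lt_succ_self).w
  rwa [tgtLast_one, srcDisc_one] at h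

lemma Jσσ (A : Coherator) (n : ℕ) :
    A.J.map (σ n) ≫ A.J.map (σ (n + 1)) = A.J.map (σ n) ≫ A.J.map (τ (n + 1)) := by
  rw [← A.J.map_comp, ← A.J.map_comp, σσ]

lemma Jττ (A : Coherator) (n : ℕ) :
    A.J.map (τ n) ≫ A.J.map (σ (n + 1)) = A.J.map (τ n) ≫ A.J.map (τ (n + 1)) := by
  rw [← A.J.map_comp, ← A.J.map_comp, ττ]

lemma par_succ {n : ℕ} {S : Θ₀} {f g : A.H (disc (n + 1)) S}
    (h : A.J.map (σ n) ≫ f = A.J.map (σ n) ≫ g) (h' : A.J.map (τ n) ≫ f = A.J.map (τ n) ≫ g) :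
    A.Parallel f g := ⟨h, h'⟩

lemma par_refl {n : ℕ} {S : Θ₀} (f : A.H (disc n) S) : A.Parallel f f := by
  cases n with
  | zero => trivial
  | succ n => exact ⟨rfl, rfl⟩

lemma par_τσ (A : Coherator) (n : ℕ) : A.Parallel (A.J.map (τ n)) (A.J.map (σ n)) := by
  cases n with
  | zero => trivial
  | succ n => exact ⟨(A.Jσσ n).symm, (A.Jττ n).symm⟩

lemma par_two (A : Coherator) (n : ℕ) :
    A.Parallel (A.J.map (σ n) ≫ A.J.map (fst n)) (A.J.map (τ n) ≫ A.J.map (snd n)) := by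
  cases n with
  | zero => trivial
  | succ n =>
    refine par_succ ?_ ?_
    · rw [← Category.assoc, A.Jσσ, Category.assoc, A.two_w, ← Category.assoc, A.Jσσ,
        Category.assoc]
    · rw [← Category.assoc, A.Jττ, Category.assoc, A.two_w, ← Category.assoc, A.Jττ,
        Category.assoc]

lemma rel_equiv' (X : A.Gpd) (n : ℕ) : Equivalence (Rel (X := X) (n := n)) where
  refl u := by simpa only [act_id] using rel_act (par_refl (𝟙 (A.J.obj (disc n)))) u
  symm := by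
    rintro _ _ ⟨w, rfl, rfl⟩
    exact rel_act (A.par_τσ n) w
  trans := by
    rintro _ _ _ ⟨w, rfl, h⟩ ⟨w', h', rfl⟩
    obtain ⟨x, rfl, rfl⟩ := exists_two' w w' (h.trans h'.symm)
    have h1 := rel_act (A.par_two n) x
    rwa [act_comp, act_comp] at h1

lemma Rel.map (f : X ⟶ Y) {n : ℕ} {u v : Cell X n} (h : Rel u v) :
    Rel (mapEl f u) (mapEl f v) := by
  obtain ⟨w, rfl, rfl⟩ := h
  exact ⟨mapEl f w, act_mapEl f _ w, act_mapEl f _ w⟩

variable (O : A.Ops)

lemma κσ (n : ℕ) : A.J.map (σ n) ≫ O.κ n = 𝟙 _ := (O.κ_lift n).1.trans (A.J.map_id _)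

lemma κτ (n : ℕ) : A.J.map (τ n) ≫ O.κ n = 𝟙 _ := (O.κ_lift n).2.trans (A.J.map_id _)

lemma μσ (n : ℕ) : A.J.map (σ n) ≫ O.μ n = A.J.map (σ n) ≫ A.J.map (fst n) := (O.μ_lift n).1

lemma μτ (n : ℕ) : A.J.map (τ n) ≫ O.μ n = A.J.map (τ n) ≫ A.J.map (snd n) := (O.μ_lift n).2

lemma mapEl_one (f : X ⟶ Y) (x : Cell X 0) : ∀ n : ℕ, mapEl f (one O x n) = one O (mapEl f x) n
  | 0 => rfl
  | n + 1 => (act_mapEl f _ _).symm.trans (congrArg (act (O.κ n)) (mapEl_one f x n))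

lemma src_one (x : Cell X 0) (n : ℕ) : src (one O x (n + 1)) = one O x n :=
  (act_comp _ _ _).symm.trans ((congrArg (act · _) (κσ O n)).trans (act_id _))

lemma tgt_one (x : Cell X 0) (n : ℕ) : tgt (one O x (n + 1)) = one O x n :=
  (act_comp _ _ _).symm.trans ((congrArg (act · _) (κτ O n)).trans (act_id _))

lemma src_μ {n : ℕ} (x : El X (sum (two n))) :
    src (act (O.μ n) x) = src (act (A.J.map (fst n)) x) :=
  (act_comp _ _ _).symm.trans ((congrArg (act · _) (μσ O n)).trans (act_comp _ _ _))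

lemma tgt_μ {n : ℕ} (x : El X (sum (two n))) :
    tgt (act (O.μ n) x) = tgt (act (A.J.map (snd n)) x) :=
  (act_comp _ _ _).symm.trans ((congrArg (act · _) (μτ O n)).trans (act_comp _ _ _))

end Coherator

end Vale.Agent.P259Z
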