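import Vale.Agent.P259Z.Gpd1

/-!
The group laws.
-/

open CategoryTheory Limits Opposite

namespace Vale.Agent.P259Z

open Vale.Agent.P259 (Tab Theta0)
open Θ₀

namespace Coherator

variable {A : Coherator} {X Y : A.Gpd} (O : A.Ops)

/-- The composite in `C` of two maps `D_{n+1} ⟶ S`. -/
noncomputable def cm {n : ℕ} {S : Θ₀} (a b : A.H (disc (n + 1)) S)
    (h : A.J.map (τ n) ≫ a = A.J.map (σ n) ≫ b) : A.H (disc (n + 1)) S :=
  O.μ n ≫ (A.sums (.disc (n + 1)) n.lt_succ_self n.lt_succ_self).desc a b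
    (by rw [tgtLast_one, srcDisc_one]; exact h)

lemma σ_cm {n : ℕ} {S : Θ₀} (a b : A.H (disc (n + 1)) S)
    (h : A.J.map (τ n) ≫ a = A.J.map (σ n) ≫ b) :
    A.J.map (σ n) ≫ cm O a b h = A.J.map (σ n) ≫ a := by
  rw [cm, ← Category.assoc, μσ, Category.assoc]
  exact congrArg _ (IsPushout.inl_desc _ _ _ _)

lemma τ_cm {n : ℕ} {S : Θ₀} (a b : A.H (disc (n + 1)) S)
    (h : A.J.map (τ n) ≫ a = A.J.map (σ n) ≫ b) :
    A.J.map (τ n) ≫ cm O a b h = A.J.map (τ n) ≫ b := by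
  rw [cm, ← Category.assoc, μτ, Category.assoc]
  exact congrArg _ (IsPushout.inr_desc _ _ _ _)

lemma comp_eq {n : ℕ} {u v : Cell X (n + 1)} (h : tgt u = src v) (x : El X (sum (two n)))
    (h1 : act (A.J.map (fst n)) x = u) (h2 : act (A.J.map (snd n)) x = v) :
    comp O u v h = act (O.μ n) x :=
  congrArg (act (O.μ n)) (Types.ext_of_isPullback (isGpd X _ _ _)
    ((exists_two u v h).choose_spec.1.trans h1.symm)
    ((exists_two u v h).choose_spec.2.trans h2.symm))

lemma comp_act {n : ℕ} {S : Θ₀} (a b : A.H (disc (n + 1)) S)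
    (h : A.J.map (τ n) ≫ a = A.J.map (σ n) ≫ b) (x : El X S) {u v : Cell X (n + 1)}
    (h' : tgt u = src v) (hu : act a x = u) (hv : act b x = v) :
    comp O u v h' = act (cm O a b h) x := by
  rw [cm, act_comp]
  refine comp_eq O h' _ ?_ ?_
  · rw [← act_comp, ← hu]
    exact congrArg (act · x) (IsPushout.inl_desc _ _ _ _)
  · rw [← act_comp, ← hv]
    exact congrArg (act · x) (IsPushout.inr_desc _ _ _ _)

lemma comp_rel {n : ℕ} {u u' v v' : Cell X (n + 1)} (h : tgt u = src v) (h' : tgt u' = src v')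
    (hu : Rel u u') (hv : Rel v v') : Rel (comp O u v h) (comp O u' v' h') := by
  obtain ⟨w, rfl, rfl⟩ := hu
  obtain ⟨w', rfl, rfl⟩ := hv
  have hn : n < n + 1 + 1 := by omega
  have hw := (A.sums (.disc (n + 1 + 1)) hn hn).w
  rw [tgtLast_two, srcDisc_two, A.J.map_comp, A.J.map_comp, Category.assoc, Category.assoc] at hw
  obtain ⟨x, rfl, rfl⟩ := exists_glue (.disc (n + 1 + 1)) hn hn w w' (by
    rw [tgtLast_two, srcDisc_two, A.J.map_comp, A.J.map_comp, ← A.Jττ, act_comp, act_comp]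
    exact h)
  have e1 : A.J.map (τ n) ≫ A.J.map (σ (n + 1)) ≫ A.J.map (inl (.disc (n + 1 + 1)) hn hn) =
      A.J.map (σ n) ≫ A.J.map (σ (n + 1)) ≫ A.J.map (inr (.disc (n + 1 + 1)) hn hn) := by
    rw [← hw, ← Category.assoc, A.Jττ, Category.assoc]
  have e2 : A.J.map (τ n) ≫ A.J.map (τ (n + 1)) ≫ A.J.map (inl (.disc (n + 1 + 1)) hn hn) =
      A.J.map (σ n) ≫ A.J.map (τ (n + 1)) ≫ A.J.map (inr (.disc (n + 1 + 1)) hn hn) := by
    rw [hw, ← Category.assoc, A.Jσσ, Category.assoc]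
  rw [comp_act O _ _ e1 x h (act_comp _ _ _) (act_comp _ _ _),
    comp_act O _ _ e2 x h' (act_comp _ _ _) (act_comp _ _ _)]
  refine rel_act_succ x ?_ ?_
  · rw [σ_cm, σ_cm, ← Category.assoc, A.Jσσ, Category.assoc]
  · rw [τ_cm, τ_cm, ← Category.assoc, A.Jττ, Category.assoc]

lemma comp_assoc {n : ℕ} (u v w : Cell X (n + 1)) (h : tgt u = src v) (h' : tgt v = src w)
    (k : tgt (comp O u v h) = src w) (k' : tgt u = src (comp O v w h')) :
    Rel (comp O (comp O u v h) w k) (comp O u (comp O v w h') k') := by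
  have hn := n.lt_succ_self
  obtain ⟨y, rfl, rfl⟩ := exists_two' u v h
  obtain ⟨x, rfl, rfl⟩ := exists_glue (two n) hn hn y w (by
    rw [tgtLast_glue, srcDisc_one, A.J.map_comp, act_comp]
    exact h')
  have hw := (A.sums (two n) hn hn).w
  rw [tgtLast_glue, srcDisc_one, A.J.map_comp, Category.assoc] at hw
  have e1 : A.J.map (τ n) ≫ A.J.map (fst n) ≫ A.J.map (inl (two n) hn hn) =
      A.J.map (σ n) ≫ A.J.map (snd n) ≫ A.J.map (inl (two n) hn hn) := by
    rw [← Category.assoc, A.two_w, Category.assoc]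
  have c1 := comp_act O _ _ e1 x h (act_comp _ _ _) (act_comp _ _ _)
  have c2 := comp_act O _ _ hw x h' (act_comp _ _ _) rfl
  rw [comp_act O _ _ ((τ_cm O _ _ e1).trans hw) x k c1.symm rfl,
    comp_act O _ _ (e1.trans (σ_cm O _ _ hw).symm) x k' (act_comp _ _ _) c2.symm]
  refine rel_act_succ x ?_ ?_
  · rw [σ_cm, σ_cm, σ_cm]
  · rw [τ_cm, τ_cm, τ_cm]

lemma id_comp {n : ℕ} (u : Cell X (n + 1)) (h : tgt (act (O.κ n) (src u)) = src u) :
    Rel (comp O (act (O.κ n) (src u)) u h) u := by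
  have e : A.J.map (τ n) ≫ O.κ n ≫ A.J.map (σ n) = A.J.map (σ n) ≫ 𝟙 _ := by
    rw [← Category.assoc, κτ, Category.id_comp, Category.comp_id]
  rw [comp_act O _ _ e u h (act_comp _ _ _) (act_id u)]
  have h1 : A.Parallel (cm O _ _ e) (𝟙 _) := by
    refine par_succ ?_ (τ_cm O _ _ e)
    rw [σ_cm, ← Category.assoc, κσ, Category.id_comp, Category.comp_id]
  simpa only [act_id] using rel_act h1 u

lemma exists_inv {n : ℕ} (u : Cell X (n + 1)) : ∃ v, src v = tgt u ∧ ∃ h : tgt v = src u,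
    Rel (comp O v u h) (act (O.κ n) (tgt u)) := by
  obtain ⟨k, h1', h2'⟩ := A.coh.lifts _ _ (A.par_τσ n)
  have h1 : A.J.map (σ n) ≫ k = A.J.map (τ n) := h1'
  have h2 : A.J.map (τ n) ≫ k = A.J.map (σ n) := h2'
  have e : A.J.map (τ n) ≫ k = A.J.map (σ n) ≫ 𝟙 _ := by rw [h2, Category.comp_id]
  have h : tgt (act k u) = src u := (act_comp _ _ _).symm.trans (congrArg (act · u) h2)
  refine ⟨act k u, (act_comp _ _ _).symm.trans (congrArg (act · u) h1), h, ?_⟩
  rw [comp_act O _ _ e u h rfl (act_id u), tgt, ← act_comp]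
  refine rel_act_succ u ?_ ?_
  · rw [σ_cm, h1, ← Category.assoc, κσ, Category.id_comp]
  · rw [τ_cm, ← Category.assoc, κτ, Category.id_comp, Category.comp_id]

lemma π.sound {x : Cell X 0} {n : ℕ} {u v : Loop O x n} (h : Rel u.1 v.1) :
    π.mk O u = π.mk O v := Quotient.sound h

lemma π.surj {x : Cell X 0} {n : ℕ} (a : π O x n) : ∃ u, π.mk O u = a := Quotient.exists_rep a

lemma Loop.ext' {x : Cell X 0} {n : ℕ} {u v : Loop O x n} (h : u.cell = v.cell) : u = v := by
  cases u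
  cases v
  cases h
  rfl

lemma loop_inv {x : Cell X 0} {n : ℕ} (u : Loop O x n) :
    ∃ v, π.mk O (Loop.mul O v u) = π.mk O (Loop.one O x n) := by
  obtain ⟨v, h1, h2, h3⟩ := exists_inv O u.1
  rw [u.3] at h3
  exact ⟨⟨v, h1.trans u.3, h2.trans u.2⟩, π.sound O h3⟩

lemma loop_assoc {x : Cell X 0} {n : ℕ} (u v w : Loop O x n) :
    π.mk O (Loop.mul O (Loop.mul O u v) w) = π.mk O (Loop.mul O u (Loop.mul O v w)) :=
  π.sound O (comp_assoc O u.1 v.1 w.1 (u.composable O v) (v.composable O w)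
    ((Loop.mul O u v).composable O w) (u.composable O (Loop.mul O v w)))

lemma loop_one {x : Cell X 0} {n : ℕ} (u : Loop O x n) :
    π.mk O (Loop.mul O (Loop.one O x n) u) = π.mk O u := by
  have h := id_comp O u.1 (by rw [u.2]; exact tgt_one O x n)
  simp only [u.2] at h
  exact π.sound O h

lemma loop_map_mul (f : X ⟶ Y) {x : Cell X 0} {n : ℕ} (u v : Loop O x n) :
    Loop.map O f (Loop.mul O u v) = Loop.mul O (Loop.map O f u) (Loop.map O f v) := by
  have h := (exists_two u.1 v.1 (u.composable O v)).choose_spec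
  exact Loop.ext' O ((comp_eq O ((Loop.map O f u).composable O (Loop.map O f v)) _
    ((act_mapEl f _ _).trans (congrArg (mapEl f) h.1))
    ((act_mapEl f _ _).trans (congrArg (mapEl f) h.2))).trans (act_mapEl f _ _)).symm

end Coherator

end Vale.Agent.P259Z
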