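import Vale.Agent.P259Z.Br4

/-!
The homotopy hypothesis, with the objects as posed.
-/

open CategoryTheory Limits Opposite CompactlyGenerated

namespace Vale.Agent.P259Z

open Vale.Agent.P259 (Tab Theta0)

namespace Br

open GlobExt Coherator

variable {A : Coherator}

lemma sums_of_glue {K : Type 1} [Category.{0} K] {F : Θ₀ ⥤ K} (h : P259.PreservesGlue (E ⋙ F)) :
    PreservesSums F := by
  intro l t j i hl hi
  have h1 : IsPushout (F.map (E.map (P259.Theta0.face true hl ≫ P259.Theta0.lastIncl t)))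
      (F.map (E.map (P259.Theta0.face false hi))) (F.map (E.map (P259.Theta0.inl t j i hl hi)))
      (F.map (E.map (P259.Theta0.inr t j i hl hi))) := h t j i hl hi
  rw [E_tgt, E_src, E_inl, E_inr] at h1
  exact h1

lemma conj_nat' {K : Type*} [Category K] {a a' b b' c c' : K} {f : a ⟶ a'} {u : b ⟶ b'}
    {v : c ⟶ c'} {e : a ⟶ c} {e' : a' ⟶ c'} (r : b ≅ c) (r' : b' ≅ c') (h : f ≫ e' = e ≫ v)
    (h' : u ≫ r'.hom = r.hom ≫ v) : f ≫ e' ≫ r'.inv = (e ≫ r.inv) ≫ u := by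
  rw [← Category.assoc, h, ← cancel_mono r'.hom, Category.assoc, Category.assoc, Category.assoc,
    Category.assoc, h', Iso.inv_hom_id, Iso.inv_hom_id_assoc, Category.comp_id]

theorem nonempty_disc (A : Coherator) : Nonempty (DiscFunctor A) := by
  obtain ⟨Δ⟩ := P259.exists_discFunctor (isCoherator_ge A.coh).tower.some
  let D : A.C ⥤ Top := (Ψ A.toGlobExt).inv ⋙ P259.S.discCG Δ
  let ι : P259.S.discCG Δ ≅ Ψ A.toGlobExt ⋙ D :=
    Functor.isoWhiskerRight (Ψ A.toGlobExt).asEquivalence.unitIso (P259.S.discCG Δ)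
  let b : (ge A.toGlobExt).discF ⋙ Ψ A.toGlobExt ⋙ D ⋙ compactlyGeneratedToTop ≅ P259.ballF :=
    Functor.isoWhiskerLeft (ge A.toGlobExt).discF
      (Functor.isoWhiskerRight ι.symm compactlyGeneratedToTop) ≪≫ Δ.disc
  refine ⟨⟨D, sums_of_glue (P259.S.preservesGlue_of_iso
    (Functor.isoWhiskerLeft (ge A.toGlobExt).J ι) (P259.S.preservesGlue_discCG Δ)),
    ⟨fun n => fullyFaithfulCompactlyGeneratedToTop.preimageIso
      (b.app (P259.Globe.D n) ≪≫ (ρ n).symm), fun n => ?_, fun n => ?_⟩⟩⟩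
  · apply fullyFaithfulCompactlyGeneratedToTop.map_injective
    rw [← E_σ]
    exact conj_nat' (ρ n) (ρ (n + 1)) (b.hom.naturality (P259.Globe.σ n)) (upper_ρ n)
  · apply fullyFaithfulCompactlyGeneratedToTop.map_injective
    rw [← E_τ]
    exact conj_nat' (ρ n) (ρ (n + 1)) (b.hom.naturality (P259.Globe.τ n)) (lower_ρ n)

/-- The new values on objects. -/
noncomputable def objT (Δ : DiscFunctor A) : ∀ {l : ℕ} (t : Tab l),
    (Y : Top) × (Δ.D.obj (A.J.obj (Θ₀.sum t)) ≅ Y)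
  | _, .disc n => ⟨ball n, Δ.discs.e n⟩
  | _, .glue _ _ _ _ _ => ⟨_, Iso.refl _⟩

/-- The new values on objects. -/
noncomputable def objS (Δ : DiscFunctor A) (S : Θ₀) : (Y : Top) × (Δ.D.obj (A.J.obj S) ≅ Y) :=
  objT Δ (Theta0.tab S)

lemma objS_cast (Δ : DiscFunctor A) {S S' : Θ₀} (h : S' = S) :
    (Δ.D.map (eqToHom (congrArg A.J.obj h).symm) ≫ (objS Δ S').2.hom) ≫
      eqToHom (congrArg (fun T => (objS Δ T).1) h) = (objS Δ S).2.hom := by
  subst h
  simp

theorem exists_strict (A : Coherator) : ∃ Δ : DiscFunctor A, Δ.discs.IsStrict := by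
  obtain ⟨Δ⟩ := nonempty_disc A
  let e : ∀ c, Δ.D.obj c ≅ (objS Δ (oinv A.toGlobExt c)).1 := fun c =>
    Δ.D.mapIso (eqToIso (J_oinv c).symm) ≪≫ (objS Δ (oinv A.toGlobExt c)).2
  let D : A.C ⥤ Top := Δ.D.copyObj _ e
  have h : ∀ n, D.obj (A.J.obj (Θ₀.disc n)) = ball n := fun n =>
    congrArg (fun T => (objS Δ T).1) (oinv_J (A := A.toGlobExt) (Θ₀.disc n))
  have he : ∀ n, (e (A.J.obj (Θ₀.disc n))).hom ≫ eqToHom (h n) = (Δ.discs.e n).hom := fun n =>
    objS_cast Δ (oinv_J (A := A.toGlobExt) (Θ₀.disc n))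
  have key : ∀ n (f : Θ₀.disc n ⟶ Θ₀.disc (n + 1)) (u : ball n ⟶ ball (n + 1)),
      Δ.D.map (A.J.map f) ≫ (Δ.discs.e (n + 1)).hom = (Δ.discs.e n).hom ≫ u →
      D.map (A.J.map f) ≫ (eqToIso (h (n + 1))).hom = (eqToIso (h n)).hom ≫ u := by
    intro n f u hu
    rw [← he, ← he, Category.assoc] at hu
    exact (Category.assoc _ _ _).trans ((Iso.inv_comp_eq _).2 ((Category.assoc _ _ _).trans hu))
  refine ⟨⟨D, fun t _ _ hl hi => ?_, ⟨fun n => eqToIso (h n), fun n => key n _ _ (Δ.discs.σ n),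
    fun n => key n _ _ (Δ.discs.τ n)⟩⟩, fun n => ⟨h n, rfl⟩⟩
  let i : A.J ⋙ Δ.D ≅ A.J ⋙ D := Functor.isoWhiskerLeft A.J (Δ.D.isoCopyObj _ e)
  exact (Δ.sums t hl hi).of_iso (i.app _) (i.app _) (i.app _) (i.app _) (i.hom.naturality _)
    (i.hom.naturality _) (i.hom.naturality _) (i.hom.naturality _)

theorem nonempty_ops (A : Coherator) : Nonempty A.Ops := by
  choose κ hκ using fun n => A.coh.lifts _ _ (par_refl (A.j (𝟙 (Θ₀.disc n))))
  choose μ hμ using fun n => A.coh.lifts _ _ (A.par_two n)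
  exact ⟨⟨κ, hκ, μ, hμ⟩⟩

theorem weq_indep (O O' : A.Ops) : weq O = weq O' := by
  have hC := isCoherator_ge A.coh
  obtain ⟨K0⟩ := P259.GlobExt.exists_cylFun_zero hC
  rw [weq_eq, weq_eq]
  ext X Y f
  exact (P259.GlobExt.weq_iff hC K0 _ _).trans (P259.GlobExt.weq_iff hC K0 _ _).symm

lemma whe_eq : whe = P259.wheCG := rfl

theorem isLocalization (O : A.Ops) (Δ : DiscFunctor A) :
    whe = (weq O).inverseImage Δ.Pi ∧ (Δ.Pi ⋙ (weq O).Q).IsLocalization whe := by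
  have hC := isCoherator_ge A.coh
  obtain ⟨K0⟩ := P259.GlobExt.exists_cylFun_zero hC
  have hW : P259.GlobExt.weq (ident O) = (K0.pathCtx hC).W := by
    ext X Y f
    exact P259.GlobExt.weq_iff hC K0 _ f
  have h0 := P259.homotopyHypothesis hC (ident O) (toDisc Δ)
  have hE := weq_eq O
  have hP : ∀ {Y Z : Top} (f : Y ⟶ Z),
      P259.GlobExt.weq (ident O) ((toDisc Δ).PiCG.map f) ↔ whe f := fun f =>
    P259.weq_Pi hC (ident O) (toDisc Δ) _
  rw [hW] at h0 hE hP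
  obtain ⟨hQ, hloc⟩ := h0
  let WM := (K0.pathCtx hC).W
  let e := piIso Δ
  refine ⟨?_, ?_⟩
  · ext X Y f
    rw [hE, ← hP]
    exact (WM.arrow_mk_iso_iff (Arrow.isoMk (e.app X) (e.app Y) (e.hom.naturality f).symm)).symm
  · let W1 := weq O
    let Φ' : LocalizerMorphism W1 WM := ⟨EG A, hE.le⟩
    have i1 : Φ'.functor.IsEquivalence := inferInstanceAs (EG A).IsEquivalence
    have i2 : Φ'.IsInduced := ⟨hE.symm⟩
    have i3 : Φ'.IsLocalizedEquivalence := Φ'.isLocalizedEquivalence_of_isInduced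
    let G := Φ'.localizedFunctor W1.Q WM.Q
    have i4 : G.IsEquivalence := inferInstance
    have sq : EG A ⋙ WM.Q ≅ W1.Q ⋙ G := (Φ'.catCommSq W1.Q WM.Q).iso
    let Θ : LocalizerMorphism whe WM := ⟨(toDisc Δ).PiCG, hQ⟩
    have i6 : Θ.IsLocalizedEquivalence := hloc
    have i5 : (Θ.functor ⋙ WM.Q).IsLocalization whe :=
      LocalizerMorphism.IsLocalizedEquivalence.isLocalization Θ WM.Q
    change ((toDisc Δ).PiCG ⋙ WM.Q).IsLocalization whe at i5
    refine Functor.IsLocalization.of_equivalence_target ((toDisc Δ).PiCG ⋙ WM.Q) whe _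
      G.asEquivalence.symm ?_
    exact Functor.isoWhiskerRight (Functor.isoWhiskerRight e.symm WM.Q ≪≫
        Functor.associator _ _ _ ≪≫ Functor.isoWhiskerLeft Δ.Pi sq) G.inv ≪≫
      Functor.associator _ _ _ ≪≫ Functor.isoWhiskerLeft Δ.Pi
        (Functor.associator _ _ _ ≪≫
          Functor.isoWhiskerLeft W1.Q G.asEquivalence.unitIso.symm ≪≫ Functor.rightUnitor _)

/-- A colimit of the underlying categories is a colimit of globular extensions. -/
theorem isColimit_of_toCat (T : ℕ ⥤ GlobExt) (c : Cocone T)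
    (h : Nonempty (IsColimit (toCat.mapCocone c))) : Nonempty (IsColimit c) := by
  obtain ⟨h⟩ := h
  refine ⟨IsColimit.ofExistsUnique fun s => ?_⟩
  obtain ⟨d, hd, hu⟩ := h.existsUnique (toCat.mapCocone s)
  have hd' : ∀ k, (c.ι.app k).1 ⋙ d.toFunctor = (s.ι.app k).1 := fun k =>
    congrArg Cat.Hom.toFunctor (hd k)
  refine ⟨⟨d.toFunctor, ?_⟩, fun k => ghom_ext (hd' k), fun m hm => ghom_ext ?_⟩
  · have e1 : (T.obj 0).J ⋙ (c.ι.app 0).1 = c.pt.J := (c.ι.app 0).2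
    have e2 : (T.obj 0).J ⋙ (s.ι.app 0).1 = s.pt.J := (s.ι.app 0).2
    rw [← e1, ← e2, ← hd' 0]
    rfl
  · exact congrArg Cat.Hom.toFunctor (hu (toCat.map m) fun k => congrArg toCat.map (hm k))

end Br

open Br in
/-- The homotopy hypothesis, with the objects as posed. -/
theorem final : Nonempty Coherator ∧
    (∀ (T : ℕ ⥤ GlobExt) (c : Cocone T),
      Nonempty (IsColimit (toCat.mapCocone c)) → Nonempty (IsColimit c)) ∧ ∀ C : Coherator,
    Nonempty C.Ops ∧ (∀ O O' : C.Ops, Coherator.weq O = Coherator.weq O') ∧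
    (∃ D : DiscFunctor C, D.discs.IsStrict) ∧ ∀ (O : C.Ops) (D : DiscFunctor C),
      whe = (Coherator.weq O).inverseImage D.Pi ∧
      ∃ G : whe.Localization ⥤ (Coherator.weq O).Localization,
        whe.Q ⋙ G = D.Pi ⋙ (Coherator.weq O).Q ∧ G.IsEquivalence := by
  refine ⟨nonempty_coherator, isColimit_of_toCat,
    fun C => ⟨nonempty_ops C, weq_indep, exists_strict C, fun O D => ?_⟩⟩
  obtain ⟨h1, h2⟩ := isLocalization O D
  exact ⟨h1, Localization.Construction.lift _ h2.inverts, Localization.Construction.fac _ _,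
    h2.isEquivalence⟩

end Vale.Agent.P259Z
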