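import Mathlib.Analysis.InnerProductSpace.PiL2

/-!
Lemmas on hemispheres.
-/

namespace Vale.Agent.P259Z

lemma cons_norm {s : ℝ} (hs : s ^ 2 = 1) {n : ℕ} (x : EuclideanSpace ℝ (Fin n)) (hx : ‖x‖ ≤ 1) :
    ‖(WithLp.toLp 2 (Fin.cons (s * √(1 - ‖x‖ ^ 2)) x.ofLp) : EuclideanSpace ℝ (Fin (n + 1)))‖ ≤
      1 := by
  have h : ‖(WithLp.toLp 2 (Fin.cons (s * √(1 - ‖x‖ ^ 2)) x.ofLp) :
      EuclideanSpace ℝ (Fin (n + 1)))‖ ^ 2 = 1 := by
    rw [EuclideanSpace.real_norm_sq_eq, Fin.sum_univ_succ]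
    simp only [Fin.cons_zero, Fin.cons_succ]
    rw [← EuclideanSpace.real_norm_sq_eq, mul_pow, hs,
      Real.sq_sqrt (sub_nonneg.2 (pow_le_one₀ (norm_nonneg _) hx))]
    ring
  exact ((pow_eq_one_iff_of_nonneg (norm_nonneg _) two_ne_zero).1 h).le

lemma cons_continuous (s : ℝ) (n : ℕ) : Continuous fun x : EuclideanSpace ℝ (Fin n) =>
    (WithLp.toLp 2 (Fin.cons (s * √(1 - ‖x‖ ^ 2)) x.ofLp) : EuclideanSpace ℝ (Fin (n + 1))) := by
  refine (PiLp.continuous_toLp 2 _).comp (continuous_pi fun i => ?_)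
  refine Fin.cases ?_ (fun i => ?_) i
  · simp only [Fin.cons_zero]
    fun_prop
  · simp only [Fin.cons_succ]
    fun_prop

end Vale.Agent.P259Z
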