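import Vale.Agent.P259Z.Gpd
import Vale.Agent.P259Z.TopL
import Mathlib.Topology.Category.CompactlyGenerated
import Mathlib.Topology.Homotopy.HomotopyGroup

/-!
Closed discs, disc functors, the fundamental `∞`-groupoid, weak homotopy equivalences.
-/

open CategoryTheory Limits Opposite
open scoped Topology.Homotopy

namespace Vale.Agent.P259Z

open Θ₀

/-- The category `Top` of compactly generated spaces. -/
abbrev Top : Type 1 := CompactlyGenerated.{0, 0}

/-- The closed unit ball of the Euclidean space `ℝ^n`. -/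
def inBall {n : ℕ} (x : EuclideanSpace ℝ (Fin n)) : Prop := ‖x‖ ≤ 1

/-- The closed `n`-disc: the closed unit ball of the Euclidean space `ℝ^n`. -/
def Ball (n : ℕ) : Type := Subtype (inBall (n := n))

instance instBall (n : ℕ) : TopologicalSpace (Ball n) := instTopologicalSpaceSubtype

instance instBallCG (n : ℕ) : CompactlyGeneratedSpace (Ball n) :=
  inferInstanceAs (CompactlyGeneratedSpace (Subtype (inBall (n := n))))

/-- The closed `n`-disc as an object of `Top`. -/
noncomputable def ball (n : ℕ) : Top := CompactlyGenerated.of (Ball n)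

/-- The point `(s √(1 - |x|²), x)` of `ℝ^{n+1}`. -/
noncomputable def hemiPt (s : ℝ) {n : ℕ} (x : EuclideanSpace ℝ (Fin n)) :
    EuclideanSpace ℝ (Fin (n + 1)) :=
  WithLp.toLp 2 (Fin.cons (s * √(1 - ‖x‖ ^ 2)) x.ofLp)

/-- The map `x ↦ (s √(1 - |x|²), x)` of discs, `s = 1` or `s = -1`. -/
noncomputable def hemiFun (s : ℝ) (hs : s ^ 2 = 1) (n : ℕ) (x : Ball n) : Ball (n + 1) :=
  ⟨hemiPt s x.1, show inBall (hemiPt s x.1) from cons_norm hs x.1 x.2⟩

lemma continuous_hemiFun (s : ℝ) (hs : s ^ 2 = 1) (n : ℕ) : Continuous (hemiFun s hs n) :=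
  ((cons_continuous s n).comp continuous_subtype_val).subtype_mk _

/-- The boundary hemisphere `x ↦ (s √(1 - |x|²), x)`. -/
noncomputable def hemi (s : ℝ) (hs : s ^ 2 = 1) (n : ℕ) : ball n ⟶ ball (n + 1) :=
  CompactlyGenerated.ofHom ⟨hemiFun s hs n, continuous_hemiFun s hs n⟩

/-- The upper hemisphere. -/
noncomputable def upper (n : ℕ) : ball n ⟶ ball (n + 1) := hemi 1 (one_pow 2) n

/-- The lower hemisphere. -/
noncomputable def lower (n : ℕ) : ball n ⟶ ball (n + 1) := hemi (-1) neg_one_sq n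

/-- `F : Θ₀ ⥤ Top` sends `D_n` to the closed `n`-disc (up to given homeomorphisms `e n`) and
`σ_n`, `τ_n` to the two hemispheres. -/
structure Discs (F : Θ₀ ⥤ Top) : Type where
  e : ∀ n, F.obj (disc n) ≅ ball n
  σ : ∀ n, F.map (Θ₀.σ n) ≫ (e (n + 1)).hom = (e n).hom ≫ upper n
  τ : ∀ n, F.map (Θ₀.τ n) ≫ (e (n + 1)).hom = (e n).hom ≫ lower n

/-- `F(D_n)` is equal to the closed `n`-disc and `e n` is the identity. -/
def Discs.IsStrict {F : Θ₀ ⥤ Top} (d : Discs F) : Prop :=
  ∀ n, ∃ h : F.obj (disc n) = ball n, d.e n = eqToIso h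

/-- A disc functor: a functor `D : C ⥤ Top` which preserves globular sums and sends `D_n` to the
closed `n`-disc, `σ_n`, `τ_n` to the two hemispheres. -/
structure DiscFunctor (A : Coherator) : Type 1 where
  D : A.C ⥤ Top
  sums : PreservesSums (A.J ⋙ D)
  discs : Discs (A.J ⋙ D)

/-- The functor `Y ↦ Hom(D(-), Y)` to presheaves on `C`. -/
def DiscFunctor.homs {A : Coherator} (Δ : DiscFunctor A) : Top ⥤ A.Psh :=
  yoneda ⋙ (Functor.whiskeringLeft _ _ _).obj Δ.D.op

lemma DiscFunctor.isGpd {A : Coherator} (Δ : DiscFunctor A) (Y : Top) : A.IsGpd (Δ.homs.obj Y) :=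
  fun t _ _ hl hi => ((Δ.sums t hl hi).op.map (yoneda.obj Y)).flip

/-- The fundamental `∞`-groupoid functor `Y ↦ Hom(D(-), Y)`. -/
noncomputable def DiscFunctor.Pi {A : Coherator} (Δ : DiscFunctor A) : Top ⥤ A.Gpd :=
  A.IsGpd.lift Δ.homs Δ.isGpd

section

variable {X Y : Type} [TopologicalSpace X] [TopologicalSpace Y] (f : C(X, Y))

/-- The map induced on the sets of path components. -/
def zerothMap : ZerothHomotopy X → ZerothHomotopy Y :=
  ZerothHomotopy.lift (fun x => ZerothHomotopy.mk (f x))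
    fun _ _ p => ZerothHomotopy.sound (p.map f.continuous)

lemma loop_mem {n : ℕ} {x : X} (p : Ω^ (Fin n) X x) : f.comp p.1 ∈ Ω^ (Fin n) Y (f x) :=
  fun y hy => congrArg f (p.2 y hy)

/-- The map induced on `n`-dimensional loops. -/
def loopMap (n : ℕ) (x : X) (p : Ω^ (Fin n) X x) : Ω^ (Fin n) Y (f x) :=
  ⟨f.comp p.1, loop_mem f p⟩

lemma loopMap_rel (n : ℕ) (x : X) ⦃p q : Ω^ (Fin n) X x⦄ (h : GenLoop.Homotopic p q) :
    GenLoop.Homotopic (loopMap f n x p) (loopMap f n x q) := h.comp_continuousMap f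

/-- The map induced on the `n`-th homotopy groups. -/
def homotopyMap (n : ℕ) (x : X) : HomotopyGroup (Fin n) X x → HomotopyGroup (Fin n) Y (f x) :=
  Quot.map (loopMap f n x) (loopMap_rel f n x)

/-- Bijective on path components and on all homotopy groups `π_{n+1}(X, x)`. -/
def IsWHE : Prop := Function.Bijective (zerothMap f) ∧
  ∀ (n : ℕ) (x : X), Function.Bijective (homotopyMap f (n + 1) x)

end

/-- Weak homotopy equivalences. -/
def whe : MorphismProperty Top := fun _ _ f => IsWHE f.hom.hom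

end Vale.Agent.P259Z
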